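import Crest.Agent.N067.X7.Basic

/-! # Row 67, X7: Weak
weak: pdv i (psi^2) = -2 sqrt2 v psi^2 pdv i d (Sol.pdv_dd), so sum_i pdv i (psi^2 pdv i f) = psi^2 Lm v f;
St.weak_lap with g = zeta psi^2.  stress: pdv j en = sum_i v_i v_ij + (v^3 - v) v_j and
sum_i pdv i (v_i v_j) = (Lap v) v_j + sum_i v_i v_ij, so sum_i pdv i (T_ij) = 0; ibp (R077.ibp_right / green_one style) entrywise.
-/

set_option autoImplicit false

open MeasureTheory Laplacian InnerProductSpace Topology Filter Set Metric
open scoped RealInnerProductSpace ContDiff Gradient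

namespace Crest.Agent.N067.X7

open Crest.Agent.R077

namespace Weak'

variable {n : ℕ}

theorem div_int {V : Fin n → EE n → ℝ} (hV : ∀ i, ContDiff ℝ 1 (V i))
    (hc : ∀ i, HasCompactSupport (V i)) (i : Fin n) : Integrable (pdv i (V i)) :=
  (St.continuous_pdv (hV i) i).integrable_of_hasCompactSupport (hasCompactSupport_pdv (hc i) i)

theorem div_zero {V : Fin n → EE n → ℝ} (hV : ∀ i, ContDiff ℝ 1 (V i))
    (hc : ∀ i, HasCompactSupport (V i)) : ∫ x, ∑ i, pdv i (V i) x = 0 := by
  rw [integral_finsetSum _ fun i _ => div_int hV hc i]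
  refine Finset.sum_eq_zero fun i _ => ?_
  simpa [pdv_const] using ibp_left (g := fun _ => 1) (hV i) contDiff_const (hc i) i

theorem pdv_en {v : EE n → ℝ} (h : Sol v) (i : Fin n) (x : EE n) :
    pdv i (en v) x = ∑ k, pdv k v x * pdv i (pdv k v) x + (v x ^ 3 - v x) * pdv i v x := by
  have d0 := h.sm.differentiable (by simp) x
  have d1 := fun k => (St.contDiff_pdv_top h.sm k).differentiable (by simp) x
  have e : en v = fun y => 1 / 2 * ∑ k, pdv k v y ^ 2 + (fun s : ℝ => (1 - s ^ 2) ^ 2 / 4) (v y) :=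
    funext fun y => by simp only [en, St.norm_grad_sq]; ring
  have h1 : HasDerivAt (fun s : ℝ => (1 - s ^ 2) ^ 2 / 4) (v x ^ 3 - v x) (v x) :=
    ((((hasDerivAt_pow 2 (v x)).const_sub 1).fun_pow 2).div_const 4).congr_deriv (by
      norm_num; ring)
  have d2 : DifferentiableAt ℝ (fun y => ∑ k, pdv k v y ^ 2) x :=
    DifferentiableAt.fun_sum fun k _ => (d1 k).fun_pow 2
  rw [e, pdv_add (d2.const_mul _) (h1.differentiableAt.fun_comp' x d0), pdv_const_mul d2,
    pdv_sum _ fun k _ => (d1 k).fun_pow 2, pdv_comp h1 d0, Finset.mul_sum]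
  congr 1
  exact Finset.sum_congr rfl fun k _ => by rw [pdv_sq (d1 k)]; ring

end Weak'

open Weak'

theorem weak (_hB : Bas) : WeakStmt := by
  intro n v f ζ h hf hζ hc
  have hψ : ContDiff ℝ 1 (psi v) := contDiff_infty.1 h.contDiff_psi 1
  have hp : ∀ i, ContDiff ℝ 1 (pdv i f) := fun i => contDiff_pdv hf (by norm_num) i
  have hV : ∀ i, ContDiff ℝ 1 fun x => pdv i f x * (ζ x * psi v x ^ 2) := fun i =>
    (hp i).mul (hζ.mul (hψ.pow 2))
  have hVc : ∀ i, HasCompactSupport fun x => pdv i f x * (ζ x * psi v x ^ 2) := fun i =>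
    (hc.mul_right (f' := fun x => psi v x ^ 2)).mul_left
  have i2 : Integrable fun x => gin f ζ x * psi v x ^ 2 := by
    simp only [gin, Finset.sum_mul]
    exact integrable_finsetSum _ fun i _ => ((((hp i).continuous.mul (St.continuous_pdv hζ i)).mul
      (hψ.continuous.pow 2)).integrable_of_hasCompactSupport
        (hasCompactSupport_pdv hc i).mul_left.mul_right)
  have e : ∀ x, Lm v f x * ζ x * psi v x ^ 2 =
      ∑ i, pdv i (fun x => pdv i f x * (ζ x * psi v x ^ 2)) x - gin f ζ x * psi v x ^ 2 := by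
    intro x
    have dψ := hψ.differentiable (by norm_num) x
    have dζ := hζ.differentiable (by norm_num) x
    have dv := h.sm.differentiable (by simp) x
    have h0 := (h.psi_pos x).ne'
    have h1 : ∀ i, pdv i (psi v) x = -(2 * v x * pdv i v x) := fun i => by
      rw [← pdv_sq dv, ← pdv_const_sub 1]; rfl
    rw [Lm, lap_eq hf.contDiffAt, St.inner_grad, gin]
    simp only [Finset.sum_mul, Finset.mul_sum, ← Finset.sum_sub_distrib]
    refine Finset.sum_congr rfl fun i _ => ?_
    rw [pdv_mul ((hp i).differentiable (by norm_num) x) (dζ.fun_mul (dψ.fun_pow 2)),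
      pdv_mul dζ (dψ.fun_pow 2), pdv_sq dψ, h1, h.pdv_dd]
    field_simp
    linear_combination (-2 * v x * pdv i v x * pdv i f x * ζ x) * Real.sq_sqrt (zero_le_two (α := ℝ))
  simp only [e]
  rw [integral_sub (integrable_finsetSum _ fun i _ => div_int hV hVc i) i2, div_zero hV hVc, zero_sub]

theorem stress : StressStmt := by
  intro n v X h hX hc
  have hp : ∀ i, ContDiff ℝ 1 (pdv i v) := fun i => contDiff_infty.1 (St.contDiff_pdv_top h.sm i) 1
  have he : ContDiff ℝ 1 (en v) := by
    have e : en v = fun y => (∑ k, pdv k v y ^ 2) / 2 + (1 - v y ^ 2) ^ 2 / 4 :=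
      funext fun y => by simp only [en, St.norm_grad_sq]
    rw [e]
    exact ((ContDiff.sum fun k _ => (hp k).pow 2).div_const 2).add
      (((contDiff_const.sub ((contDiff_infty.1 h.sm 1).pow 2)).pow 2).div_const 4)
  have hS : ContDiff ℝ 1 fun x => ∑ j, pdv j v x * X j x := ContDiff.sum fun j _ => (hp j).mul (hX j)
  have hSc : HasCompactSupport fun x => ∑ j, pdv j v x * X j x :=
    HasCompactSupport.intro (isCompact_iUnion fun j => (hc j).isCompact) fun x hx =>
      Finset.sum_eq_zero fun j _ => by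
        rw [image_eq_zero_of_notMem_tsupport fun h' => hx (mem_iUnion.2 ⟨j, h'⟩), mul_zero]
  rw [← div_zero (V := fun i x => en v x * X i x - pdv i v x * ∑ j, pdv j v x * X j x)
    (fun i => (he.mul (hX i)).sub ((hp i).mul hS)) fun i => (hc i).mul_left.sub hSc.mul_left]
  refine integral_congr_ae (Eventually.of_forall fun x => ?_)
  have dp := fun i => (hp i).differentiable (by norm_num) x
  have dX := fun i => (hX i).differentiable (by norm_num) x
  have de := he.differentiable (by norm_num) x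
  have dS := hS.differentiable (by norm_num) x
  have h1 : ∀ i, pdv i (fun x => en v x * X i x - pdv i v x * ∑ j, pdv j v x * X j x) x =
      (∑ k, pdv k v x * pdv i (pdv k v) x * X i x - ∑ j, pdv i v x * pdv j (pdv i v) x * X j x) +
      ((v x ^ 3 - v x) * (pdv i v x * X i x) - pdv i (pdv i v) x * ∑ j, pdv j v x * X j x) +
      (en v x * pdv i (X i) x - ∑ j, pdv i v x * pdv j v x * pdv i (X j) x) := fun i => by
    rw [pdv_sub (de.fun_mul (dX i)) ((dp i).fun_mul dS), pdv_mul de (dX i), pdv_mul (dp i) dS,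
      pdv_sum _ fun j _ => (dp j).fun_mul (dX j), pdv_en h, ← Finset.sum_mul]
    have : pdv i v x * ∑ j, pdv i (fun y => pdv j v y * X j y) x =
        ∑ j, pdv i v x * pdv j (pdv i v) x * X j x + ∑ j, pdv i v x * pdv j v x * pdv i (X j) x := by
      rw [Finset.mul_sum, ← Finset.sum_add_distrib]
      refine Finset.sum_congr rfl fun j _ => ?_
      rw [pdv_mul (dp j) (dX j), pdv_comm h.isSol.c2.contDiffAt i j]
      ring
    rw [this]
    ring
  simp only [h1, Finset.sum_add_distrib, Finset.sum_sub_distrib]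
  rw [Finset.sum_comm (f := fun i k => pdv k v x * pdv i (pdv k v) x * X i x), sub_self,
    ← Finset.mul_sum, ← Finset.sum_mul, ← lap_eq h.isSol.c2.contDiffAt, h.eq, sub_self,
    ← Finset.mul_sum, zero_add, zero_add]

end Crest.Agent.N067.X7
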