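import Crest.Agent.N067.X7.Basic

/-! # Row 67, X7: K
z0 = br^-5, pdv i z0 = -5 x_i br^-7, k = cut R, zeta = k^2 z0, grad zeta = k^2 grad z0 + 2 k z0 grad k.
(a) |2 k z0 gin F k| psi^2 <= eta G zeta psi^2 + (1/eta) z0 gsq k psi^2, last integral <= C R^-7 mu(ball 2R) <= C (mu_one_le).
(b) pointwise, for vectors a,b: (psi^2/2)<a,b> = T(a,b) + PP <a,b> + <grad v,a><grad v,b>, T(a,b) = en <a,b> - <grad v,a><grad v,b>
 (psi^2/2 = en + PP: en_eq).  a = grad F, b = k^2 grad z0.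
 T-term: StressStmt with X_j = F k^2 pdv j z0: int T(grad F, k^2 grad z0) = - int F [k^2 T:D^2 z0 + T(grad k^2, grad z0)];
 T:D^2 z0 = -35 en br^-9 - 5 PP br^-7 - 35 <grad v,x>^2 br^-9 (bounded by MonStmt at radius 2R), second part <= C R^-7 en on the annulus.
 PP-term: PP |grad F| 5 br^-6 k^2 <= eta G zeta psi^2 + (C/eta) PP br^-7 (PP^2/psi^2 = PP t/4 <= PP/4).
 last term: |<grad v,grad F>| 5 |<grad v,x>| br^-7 k^2, |grad v|^2 <= psi^2/2: <= eta G zeta psi^2 + (C/eta) <grad v,x>^2 br^-9.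
-/

set_option autoImplicit false

open MeasureTheory Laplacian InnerProductSpace Topology Filter Set Metric
open scoped RealInnerProductSpace ContDiff Gradient

namespace Crest.Agent.N067.X7

open Crest.Agent.R077

namespace K'

variable {n : ℕ}

/-! ### real inequalities -/

theorem sq_core {ε δ g u : ℝ} (hδ : 0 ≤ δ) (h : ε * δ = 1) :
    10 * u * g ≤ 4 * ε * g ^ 2 + 25 / 4 * δ * u ^ 2 := by
  have h1 : 0 ≤ δ / 4 * (4 * ε * g - 5 * u) ^ 2 := by positivity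
  have h2 : δ / 4 * (4 * ε * g - 5 * u) ^ 2 =
      4 * ε * (ε * δ) * g ^ 2 - 10 * (ε * δ) * u * g + 25 / 4 * δ * u ^ 2 := by ring
  rw [h2, h] at h1
  linarith

set_option maxHeartbeats 800000 in
/-- the pointwise bound, all in real variables; `u = 1 / br`, primed quantities are divided by `br` -/
theorem pw {ε δ C0 ρ u k f g G κ p2 e P o A K W WA WK AK : ℝ} (hε : 0 ≤ ε) (hδ : 0 ≤ δ)
    (hεδ : ε * δ = 1) (hu : 0 ≤ u) (hk0 : 0 ≤ k) (hk1 : k ≤ 1) (hf : |f| ≤ 1)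
    (hG : g ^ 2 ≤ G) (hκ : 0 ≤ κ) (hP : 0 ≤ P) (hP4 : 4 * P ≤ p2) (hp : p2 ≤ 4 * e)
    (hoe : o ^ 2 ≤ e) (hop : 2 * o ^ 2 ≤ p2) (ho : 0 ≤ o) (_hg : 0 ≤ g)
    (hA : |A| ≤ g) (hK : |K| ≤ κ) (hW : |W| ≤ o) (hWA : |WA| ≤ o * g) (hWK : |WK| ≤ o * κ)
    (hAK : |AK| ≤ g * κ) (h1 : u ^ 5 * κ ^ 2 ≤ C0 * ρ) (h2 : u ^ 6 * κ ≤ (1 + C0) * ρ) :
    |-10 * k ^ 2 * u ^ 6 * P * A - 10 * k ^ 2 * u ^ 6 * WA * W + 2 * k * p2 * u ^ 5 * AK +
        20 * k * f * u ^ 6 * (e * K - WK * W) +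
        10 * f * k ^ 2 * (P * u ^ 7 + 7 * e * u ^ 9 + 7 * W ^ 2 * u ^ 7)| ≤
      3 * ε * (G * (k ^ 2 * u ^ 5) * p2) +
        (70 + 25 / 2 * δ) * (e * u ^ 9 + P * u ^ 7 + W ^ 2 * u ^ 7) +
        (4 * C0 * δ + 40 * (1 + C0)) * ρ * e := by
  have he : 0 ≤ e := le_trans (sq_nonneg _) hoe
  have hp0 : 0 ≤ p2 := by linarith
  have hk2 : k ^ 2 ≤ 1 := pow_le_one₀ hk0 hk1
  have hu5 : 0 ≤ u ^ 5 := by positivity
  have hu7 : 0 ≤ u ^ 7 := by positivity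
  have hGG : ε * (g ^ 2 * (k ^ 2 * u ^ 5) * p2) ≤ ε * (G * (k ^ 2 * u ^ 5) * p2) := by gcongr
  have t1 : |-10 * k ^ 2 * u ^ 6 * P * A| ≤
      ε * (g ^ 2 * (k ^ 2 * u ^ 5) * p2) + 25 / 4 * δ * (P * u ^ 7) := by
    have a1 : |-10 * k ^ 2 * u ^ 6 * P * A| = 10 * k ^ 2 * u ^ 6 * P * |A| := by
      rw [abs_mul, show -10 * k ^ 2 * u ^ 6 * P = -(10 * k ^ 2 * u ^ 6 * P) by ring, abs_neg,
        abs_of_nonneg (by positivity)]
    have a2 := sq_core (g := g) (u := u) hδ hεδ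
    have a3 : P * (10 * u * g) ≤ ε * g ^ 2 * p2 + 25 / 4 * δ * u ^ 2 * P := by
      have := mul_le_mul_of_nonneg_left a2 hP
      have b : ε * g ^ 2 * (4 * P) ≤ ε * g ^ 2 * p2 := by gcongr
      linarith
    have a4 := mul_le_mul_of_nonneg_left a3 (show 0 ≤ k ^ 2 * u ^ 5 by positivity)
    have a5 : 10 * k ^ 2 * u ^ 6 * P * |A| ≤ 10 * k ^ 2 * u ^ 6 * P * g := by gcongr
    have a6 : k ^ 2 * (25 / 4 * δ * (P * u ^ 7)) ≤ 1 * (25 / 4 * δ * (P * u ^ 7)) := by gcongr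
    rw [a1]
    calc _ ≤ 10 * k ^ 2 * u ^ 6 * P * g := a5
      _ = k ^ 2 * u ^ 5 * (P * (10 * u * g)) := by ring
      _ ≤ _ := a4
      _ = ε * (g ^ 2 * (k ^ 2 * u ^ 5) * p2) + k ^ 2 * (25 / 4 * δ * (P * u ^ 7)) := by ring
      _ ≤ _ := by linarith
  have t2 : |10 * k ^ 2 * u ^ 6 * WA * W| ≤
      ε * (g ^ 2 * (k ^ 2 * u ^ 5) * p2) + 25 / 2 * δ * (W ^ 2 * u ^ 7) := by
    have a1 : |10 * k ^ 2 * u ^ 6 * WA * W| = 10 * k ^ 2 * u ^ 6 * |WA| * |W| := by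
      rw [abs_mul, abs_mul, abs_of_nonneg (by positivity)]
    have a2 := sq_core (ε := ε / 2) (δ := 2 * δ) (g := o * g) (u := u * |W|) (by positivity)
      (by linarith)
    have a3 : 10 * (u * |W|) * (o * g) ≤ ε * g ^ 2 * p2 + 25 / 2 * δ * (u ^ 2 * W ^ 2) := by
      have b : ε * g ^ 2 * (2 * o ^ 2) ≤ ε * g ^ 2 * p2 := by gcongr
      rw [mul_pow u, sq_abs] at a2
      linarith
    have a4 := mul_le_mul_of_nonneg_left a3 (show 0 ≤ k ^ 2 * u ^ 5 by positivity)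
    have a5 : 10 * k ^ 2 * u ^ 6 * |WA| * |W| ≤ 10 * k ^ 2 * u ^ 6 * (o * g) * |W| := by gcongr
    have a6 : k ^ 2 * (25 / 2 * δ * (W ^ 2 * u ^ 7)) ≤ 1 * (25 / 2 * δ * (W ^ 2 * u ^ 7)) := by
      gcongr
    rw [a1]
    calc _ ≤ _ := a5
      _ = k ^ 2 * u ^ 5 * (10 * (u * |W|) * (o * g)) := by ring
      _ ≤ _ := a4
      _ = ε * (g ^ 2 * (k ^ 2 * u ^ 5) * p2) + k ^ 2 * (25 / 2 * δ * (W ^ 2 * u ^ 7)) := by ring
      _ ≤ _ := by linarith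
  have t3 : |2 * k * p2 * u ^ 5 * AK| ≤
      ε * (g ^ 2 * (k ^ 2 * u ^ 5) * p2) + 4 * C0 * δ * ρ * e := by
    have a1 : |2 * k * p2 * u ^ 5 * AK| = 2 * k * p2 * u ^ 5 * |AK| := by
      rw [abs_mul, abs_of_nonneg (by positivity)]
    have a2 : 2 * (k * g) * κ ≤ ε * (k * g) ^ 2 + δ * κ ^ 2 := by
      have b1 : 0 ≤ δ * (ε * (k * g) - κ) ^ 2 := by positivity
      have b2 : δ * (ε * (k * g) - κ) ^ 2 =
          ε * (ε * δ) * (k * g) ^ 2 - 2 * (ε * δ) * (k * g) * κ + δ * κ ^ 2 := by ring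
      rw [b2, hεδ] at b1
      linarith
    have a4 := mul_le_mul_of_nonneg_left a2 (show 0 ≤ p2 * u ^ 5 by positivity)
    have a5 : 2 * k * p2 * u ^ 5 * |AK| ≤ 2 * k * p2 * u ^ 5 * (g * κ) := by gcongr
    have a6 : δ * (p2 * (u ^ 5 * κ ^ 2)) ≤ δ * (4 * e * (C0 * ρ)) := by gcongr
    rw [a1]
    calc _ ≤ _ := a5
      _ = p2 * u ^ 5 * (2 * (k * g) * κ) := by ring
      _ ≤ _ := a4
      _ = ε * (g ^ 2 * (k ^ 2 * u ^ 5) * p2) + δ * (p2 * (u ^ 5 * κ ^ 2)) := by ring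
      _ ≤ _ := by linarith
  have t4 : |20 * k * f * u ^ 6 * (e * K - WK * W)| ≤ 40 * (1 + C0) * ρ * e := by
    have a1 : |e * K - WK * W| ≤ 2 * e * κ := by
      have b1 : |e * K| ≤ e * κ := by rw [abs_mul, abs_of_nonneg he]; gcongr
      have b2 : |WK * W| ≤ o * κ * o := by rw [abs_mul]; gcongr
      have b3 : κ * o ^ 2 ≤ κ * e := by gcongr
      have := abs_sub (e * K) (WK * W)
      linarith
    have a2 : |20 * k * f * u ^ 6 * (e * K - WK * W)| =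
        20 * k * |f| * u ^ 6 * |e * K - WK * W| := by
      rw [abs_mul, abs_mul, abs_mul, abs_of_nonneg (show 0 ≤ 20 * k by positivity),
        abs_of_nonneg (show 0 ≤ u ^ 6 by positivity)]
    have a3 : e * (u ^ 6 * κ) ≤ e * ((1 + C0) * ρ) := by gcongr
    rw [a2]
    calc _ ≤ 20 * 1 * 1 * u ^ 6 * (2 * e * κ) := by gcongr
      _ = 40 * (e * (u ^ 6 * κ)) := by ring
      _ ≤ _ := by linarith
  have t5 : |10 * f * k ^ 2 * (P * u ^ 7 + 7 * e * u ^ 9 + 7 * W ^ 2 * u ^ 7)| ≤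
      70 * (e * u ^ 9 + P * u ^ 7 + W ^ 2 * u ^ 7) := by
    have a0 : 0 ≤ P * u ^ 7 + 7 * e * u ^ 9 + 7 * W ^ 2 * u ^ 7 := by positivity
    have a2 : |10 * f * k ^ 2 * (P * u ^ 7 + 7 * e * u ^ 9 + 7 * W ^ 2 * u ^ 7)| =
        10 * |f| * k ^ 2 * (P * u ^ 7 + 7 * e * u ^ 9 + 7 * W ^ 2 * u ^ 7) := by
      rw [abs_mul, abs_mul, abs_mul, abs_of_nonneg a0, abs_of_nonneg (sq_nonneg k),
        abs_of_nonneg (show (0 : ℝ) ≤ 10 by norm_num)]
    have a3 : 0 ≤ P * u ^ 7 := by positivity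
    rw [a2]
    calc _ ≤ 10 * 1 * 1 * (P * u ^ 7 + 7 * e * u ^ 9 + 7 * W ^ 2 * u ^ 7) := by gcongr
      _ ≤ _ := by linarith
  have s1 : 0 ≤ δ * (e * u ^ 9) := by positivity
  have s2 : 0 ≤ δ * (P * u ^ 7) := by positivity
  rw [abs_le] at t1 t2 t3 t4 t5 ⊢
  constructor <;> linarith [t1.1, t1.2, t2.1, t2.2, t3.1, t3.2, t4.1, t4.2, t5.1, t5.2]

/-! ### derivatives -/

theorem pdv_ibr (m : ℕ) (i : Fin n) (x : EE n) :
    pdv i (fun y => (br y)⁻¹ ^ (m + 1)) x = -(m + 1) * x i * (br x)⁻¹ ^ (m + 3) := by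
  have hb := br_pos x
  have h1 : HasDerivAt (fun s : ℝ => s⁻¹ ^ (m + 1))
      (((m + 1 : ℕ) : ℝ) * (br x)⁻¹ ^ (m + 1 - 1) * (-(br x ^ 2)⁻¹)) (br x) :=
    (hasDerivAt_inv hb.ne').fun_pow (m + 1)
  rw [pdv_comp h1 ((contDiff_br.differentiable (by simp)) x) i, pdv_br]
  simp only [Nat.add_sub_cancel, Nat.cast_add, Nat.cast_one, div_eq_mul_inv, ← inv_pow]
  ring

theorem contDiff_ibr : ContDiff ℝ ∞ (fun y : EE n => (br y)⁻¹) :=
  contDiff_br.inv fun x => (br_pos x).ne'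

theorem zeta_eq (R : ℝ) : (zeta R : EE n → ℝ) = fun y => cut R y ^ 2 * (br y)⁻¹ ^ 5 := by
  funext y; simp [zeta, div_eq_mul_inv]

theorem pdv_kb (R : ℝ) (m : ℕ) (i : Fin n) (x : EE n) :
    pdv i (fun y => cut R y ^ 2 * (br y)⁻¹ ^ (m + 1)) x =
      2 * cut R x * (br x)⁻¹ ^ (m + 1) * pdv i (cut R) x -
        (m + 1) * cut R x ^ 2 * (br x)⁻¹ ^ (m + 3) * x i := by
  have h1 : DifferentiableAt ℝ (cut R : EE n → ℝ) x := (contDiff_cut' R).differentiable (by simp) x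
  have h2 : DifferentiableAt ℝ (fun y : EE n => (br y)⁻¹) x :=
    contDiff_ibr.differentiable (by simp) x
  rw [pdv_mul (f := fun y => cut R y ^ 2) (g := fun y => (br y)⁻¹ ^ (m + 1)) (h1.pow 2)
    (h2.pow (m + 1)), pdv_sq h1, pdv_ibr]
  ring

theorem gin_zeta (F : EE n → ℝ) (R : ℝ) (x : EE n) :
    gin F (zeta R) x = 2 * cut R x * (br x)⁻¹ ^ 5 * ⟪∇ F x, ∇ (cut R) x⟫ -
      5 * cut R x ^ 2 * (br x)⁻¹ ^ 7 * ⟪∇ F x, x⟫ := by
  rw [zeta_eq, gin, inner_eq_sum, inner_eq_sum, Finset.mul_sum, Finset.mul_sum,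
    ← Finset.sum_sub_distrib]
  refine Finset.sum_congr rfl fun i _ => ?_
  rw [pdv_kb R 4 i x, grad_apply, grad_apply]
  push_cast; ring

/-- the radial test field `X = h x` in the stress-energy identity -/
theorem stress_rad (hS : StressStmt) {v h : EE n → ℝ} (hv : Sol v) (hh : ContDiff ℝ 1 h)
    (hc : HasCompactSupport h) :
    ∫ x, (en v x * (⟪∇ h x, x⟫ + n * h x) - ⟪∇ v x, ∇ h x⟫ * ⟪∇ v x, x⟫ - h x * ‖∇ v x‖ ^ 2)
      = 0 := by
  have hco : ∀ j : Fin n, ContDiff ℝ 1 fun y : EE n => y j := fun j =>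
    (EuclideanSpace.proj j : EE n →L[ℝ] ℝ).contDiff
  have h0 := hS n v (fun j y => h y * y j) hv (fun j => hh.mul (hco j)) fun j => hc.mul_right
  rw [← h0]
  refine integral_congr_ae (Eventually.of_forall fun x => ?_)
  have hp : ∀ i j : Fin n, pdv i (fun y => h y * y j) x =
      pdv i h x * x j + h x * (if j = i then 1 else 0) := fun i j => by
    rw [pdv_mul (f := h) (g := fun y : EE n => y j) (hh.differentiable (by simp) x)
      ((hco j).differentiable (by simp) x), pdv_coord]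
  simp only [hp, inner_eq_sum, grad_apply, St.norm_grad_sq, if_true, mul_one,
    Finset.sum_add_distrib, Finset.sum_const, Finset.card_univ, Fintype.card_fin, nsmul_eq_mul,
    mul_add, mul_ite, mul_zero, Finset.sum_ite_eq', Finset.mem_univ]
  rw [Finset.sum_mul_sum]
  have e1 : ∑ i, ∑ j, pdv i v x * pdv i h x * (pdv j v x * x j) =
      ∑ i, ∑ j, pdv i v x * pdv j v x * (pdv i h x * x j) :=
    Finset.sum_congr rfl fun i _ => Finset.sum_congr rfl fun j _ => by ring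
  have e2 : h x * ∑ i, pdv i v x ^ 2 = ∑ i, pdv i v x * pdv i v x * h x := by
    rw [Finset.mul_sum]; exact Finset.sum_congr rfl fun i _ => by ring
  rw [e1, e2]
  ring

theorem idn {u k f p2 e P o2 N A K W WA WK AK : ℝ} (hp : p2 = 2 * (e + P)) (ho : o2 = e - P)
    (hN : u ^ 2 * N = 1 - u ^ 2) :
    (2 * k * u ^ 5 * AK - 5 * k ^ 2 * u ^ 7 * A) * p2 +
      10 * (e * ((k ^ 2 * u ^ 7 * A + 2 * k * f * u ^ 7 * K - 7 * f * k ^ 2 * u ^ 9 * N) +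
          8 * (f * (k ^ 2 * u ^ 7))) -
        (k ^ 2 * u ^ 7 * WA + 2 * k * f * u ^ 7 * WK - 7 * f * k ^ 2 * u ^ 9 * W) * W -
        f * (k ^ 2 * u ^ 7) * o2) =
    -10 * k ^ 2 * u ^ 6 * P * (u * A) - 10 * k ^ 2 * u ^ 6 * WA * (u * W) +
        2 * k * p2 * u ^ 5 * AK + 20 * k * f * u ^ 6 * (e * (u * K) - WK * (u * W)) +
        10 * f * k ^ 2 * (P * u ^ 7 + 7 * e * u ^ 9 + 7 * (u * W) ^ 2 * u ^ 7) := by
  subst hp ho
  linear_combination (-70 * e * f * k ^ 2 * u ^ 7) * hN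

theorem abs_rad (a x : EE n) : |(br x)⁻¹ * ⟪a, x⟫| ≤ ‖a‖ := by
  have hb := br_pos x
  rw [abs_mul, abs_of_pos (inv_pos.2 hb), inv_mul_le_iff₀ hb]
  have h1 := abs_real_inner_le_norm a x
  have h2 := norm_le_br x
  have h3 : ‖a‖ * ‖x‖ ≤ ‖a‖ * br x := by gcongr
  linarith

/-- the test function `F cut² ⟨x⟩⁻⁷` -/
noncomputable def hh (F : EE n → ℝ) (R : ℝ) (y : EE n) : ℝ := F y * (cut R y ^ 2 * (br y)⁻¹ ^ 7)

theorem contDiff_kb (R : ℝ) (m : ℕ) :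
    ContDiff ℝ ∞ fun y : EE n => cut R y ^ 2 * (br y)⁻¹ ^ m :=
  ((contDiff_cut' R).pow 2).mul (contDiff_ibr.pow m)

theorem contDiff_hh {F : EE n → ℝ} (hF : ContDiff ℝ 1 F) (R : ℝ) : ContDiff ℝ 1 (hh F R) :=
  hF.mul (contDiff_infty.1 (contDiff_kb R 7) 1)

theorem cs_of {f : EE n → ℝ} {R : ℝ} (h : ∀ x, 2 * R ≤ ‖x‖ → f x = 0) : HasCompactSupport f :=
  HasCompactSupport.intro (isCompact_closedBall (0 : EE n) (2 * R)) fun x hx =>
    h x (by simpa using (not_le.1 (by simpa using hx)).le)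

theorem grad_hh {F : EE n → ℝ} (hF : ContDiff ℝ 1 F) (R : ℝ) (x : EE n) :
    ∇ (hh F R) x = (cut R x ^ 2 * (br x)⁻¹ ^ 7) • ∇ F x +
      (2 * cut R x * F x * (br x)⁻¹ ^ 7) • ∇ (cut R) x -
      (7 * F x * cut R x ^ 2 * (br x)⁻¹ ^ 9) • x := by
  ext i
  simp only [PiLp.sub_apply, PiLp.add_apply, PiLp.smul_apply, smul_eq_mul, grad_apply]
  have := pdv_mul (f := F) (g := fun y : EE n => cut R y ^ 2 * (br y)⁻¹ ^ (6 + 1)) (x := x)
    (hF.differentiable (by simp) x) ((contDiff_kb R 7).differentiable (by simp) x) i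
  rw [pdv_kb R 6 i x] at this
  change pdv i (fun y => F y * (cut R y ^ 2 * (br y)⁻¹ ^ (6 + 1))) x = _
  rw [this]
  push_cast; ring

/-- the integrand of the stress-energy identity -/
noncomputable def SS (v F : EE 8 → ℝ) (R : ℝ) (x : EE 8) : ℝ :=
  en v x * (⟪∇ (hh F R) x, x⟫ + (8 : ℕ) * hh F R x) - ⟪∇ v x, ∇ (hh F R) x⟫ * ⟪∇ v x, x⟫ -
    hh F R x * ‖∇ v x‖ ^ 2

theorem SS_eq (v : EE 8 → ℝ) {F : EE 8 → ℝ} (hF : ContDiff ℝ 1 F) (R : ℝ) (x : EE 8) :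
    SS v F R x = en v x * ((cut R x ^ 2 * (br x)⁻¹ ^ 7 * ⟪∇ F x, x⟫ +
          2 * cut R x * F x * (br x)⁻¹ ^ 7 * ⟪∇ (cut R) x, x⟫ -
          7 * F x * cut R x ^ 2 * (br x)⁻¹ ^ 9 * ‖x‖ ^ 2) +
          8 * (F x * (cut R x ^ 2 * (br x)⁻¹ ^ 7))) -
        (cut R x ^ 2 * (br x)⁻¹ ^ 7 * ⟪∇ v x, ∇ F x⟫ +
          2 * cut R x * F x * (br x)⁻¹ ^ 7 * ⟪∇ v x, ∇ (cut R) x⟫ -
          7 * F x * cut R x ^ 2 * (br x)⁻¹ ^ 9 * ⟪∇ v x, x⟫) * ⟪∇ v x, x⟫ -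
        F x * (cut R x ^ 2 * (br x)⁻¹ ^ 7) * ‖∇ v x‖ ^ 2 := by
  rw [SS, grad_hh hF]
  simp only [inner_sub_left, inner_add_left, inner_sub_right, inner_add_right,
    real_inner_smul_left, real_inner_smul_right, real_inner_self_eq_norm_sq, hh, Nat.cast_ofNat]

theorem cut_scale {C0 R : ℝ} (hC0 : 0 ≤ C0) (hR : 0 < R) {x : EE n} {κ : ℝ} (hκ : 0 ≤ κ)
    (h1 : κ ^ 2 ≤ C0 / R ^ 2) (h2 : ‖x‖ < R → κ ^ 2 = 0) :
    (br x)⁻¹ ^ 5 * κ ^ 2 ≤ C0 * R⁻¹ ^ 7 ∧ (br x)⁻¹ ^ 6 * κ ≤ (1 + C0) * R⁻¹ ^ 7 := by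
  have hb := br_pos x
  have hρ : 0 < R⁻¹ := inv_pos.2 hR
  rcases lt_or_ge ‖x‖ R with hx | hx
  · have h3 := h2 hx
    have h4 : κ = 0 := by simpa using h3
    rw [h4]; constructor <;> simp only [ne_eq, OfNat.ofNat_ne_zero, not_false_eq_true, zero_pow,
      mul_zero] <;> positivity
  · have hu : (br x)⁻¹ ≤ R⁻¹ := inv_anti₀ hR (hx.trans (norm_le_br x))
    have h3 : κ ^ 2 ≤ C0 * R⁻¹ ^ 2 := by rwa [inv_pow, ← div_eq_mul_inv]
    have h4 : κ ≤ (1 + C0) * R⁻¹ := by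
      refine (pow_le_pow_iff_left₀ hκ (by positivity) two_ne_zero).1 (h3.trans ?_)
      rw [mul_pow]
      gcongr
      nlinarith
    constructor
    · calc _ ≤ R⁻¹ ^ 5 * (C0 * R⁻¹ ^ 2) := by gcongr
        _ = _ := by ring
    · calc _ ≤ R⁻¹ ^ 6 * ((1 + C0) * R⁻¹) := by gcongr
        _ = _ := by ring

end K'

open K' in
theorem kk (hB : Bas) (hS : StressStmt) (hM : MonStmt) : KStmt := by
  intro v Θ hv hE η hη
  obtain ⟨CM, hCM⟩ := hM v Θ hv hE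
  obtain ⟨C0, hC0, hcut⟩ := exists_gsq_cut 8
  obtain ⟨δ, hδ⟩ : ∃ δ : ℝ, δ = 3 / η := ⟨_, rfl⟩
  have hδ0 : 0 ≤ δ := by rw [hδ]; positivity
  have hεδ : η / 3 * δ = 1 := by rw [hδ]; field_simp
  obtain ⟨C1, hC1⟩ : ∃ C1 : ℝ, C1 = 70 + 25 / 2 * δ := ⟨_, rfl⟩
  obtain ⟨C2, hC2⟩ : ∃ C2 : ℝ, C2 = 4 * C0 * δ + 40 * (1 + C0) := ⟨_, rfl⟩
  have hC10 : 0 ≤ C1 := by rw [hC1]; positivity
  have hC20 : 0 ≤ C2 := by rw [hC2]; positivity
  refine ⟨C1 * CM + C2 * (2 ^ 7 * Θ), fun R hR F G hF hF1 hG hFG => ?_⟩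
  have hR0 : 0 < R := by linarith
  have hv1 : ContDiff ℝ 1 v := contDiff_infty.1 hv.sm 1
  have cv := St.continuous_grad hv1
  have ch := St.continuous_grad (contDiff_hh hF R)
  have ch0 := (contDiff_hh hF R).continuous
  have ce := cont_en hv
  have cp := cont_psi hv
  have ct := hv.continuous_tt
  have cb : Continuous (br : EE 8 → ℝ) := contDiff_br.continuous
  have cz := (contDiff_zeta (n := 8) R).continuous
  have hI0 : ∀ x : EE 8, 2 * R ≤ ‖x‖ → gin F (zeta R) x * psi v x ^ 2 = 0 := fun x hx => by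
    rw [gin_zeta, cut_zero hR0 hx]; simp
  have hS0 : ∀ x : EE 8, 2 * R ≤ ‖x‖ → SS v F R x = 0 := fun x hx => by
    rw [SS_eq v hF, cut_zero hR0 hx]; simp
  have iI : Integrable fun x => gin F (zeta R) x * psi v x ^ 2 :=
    ((cont_gin hF (contDiff_infty.1 (contDiff_zeta R) 1)).mul (cp.pow 2)).integrable_of_hasCompactSupport
      (cs_of hI0)
  have iS : Integrable (SS v F R) :=
    Continuous.integrable_of_hasCompactSupport (by unfold SS; fun_prop) (cs_of hS0)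
  have hSint : ∫ x, SS v F R x = 0 :=
    stress_rad hS hv (contDiff_hh hF R) (cs_of (R := R) fun x hx => by
      rw [hh, cut_zero hR0 hx]; simp)
  have iG : Integrable fun x => G x * zeta R x * psi v x ^ 2 :=
    Continuous.integrable_of_hasCompactSupport (by fun_prop) (cs_zeta hR0).mul_left.mul_right
  have cM : Continuous fun x : EE 8 =>
      en v x / br x ^ 9 + PP v x / br x ^ 7 + ⟪∇ v x, x⟫ ^ 2 / br x ^ 9 := by
    have hb : ∀ (m : ℕ) (x : EE 8), br x ^ m ≠ 0 := fun m x => (pow_pos (br_pos x) m).ne'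
    have cP : Continuous (PP v) := by unfold PP; fun_prop
    exact ((ce.div (cb.pow 9) (hb 9)).add (cP.div (cb.pow 7) (hb 7))).add
      (Continuous.div (by fun_prop) (cb.pow 9) (hb 9))
  have iM := intOn (A := ball (0 : EE 8) (2 * R)) cM Subset.rfl
  have iE := intOn (A := ball (0 : EE 8) (2 * R)) ce Subset.rfl
  have iB : IntegrableOn (fun x : EE 8 =>
      C1 * (en v x / br x ^ 9 + PP v x / br x ^ 7 + ⟪∇ v x, x⟫ ^ 2 / br x ^ 9) +
        C2 * R⁻¹ ^ 7 * en v x) (ball 0 (2 * R)) := (iM.const_mul _).add (iE.const_mul _)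
  have key : ∀ x : EE 8, ‖gin F (zeta R) x * psi v x ^ 2 + 10 * SS v F R x‖ ≤
      η * (G x * zeta R x * psi v x ^ 2) + (ball (0 : EE 8) (2 * R)).indicator (fun x =>
        C1 * (en v x / br x ^ 9 + PP v x / br x ^ 7 + ⟪∇ v x, x⟫ ^ 2 / br x ^ 9) +
          C2 * R⁻¹ ^ 7 * en v x) x := by
    intro x
    have hG0 : 0 ≤ G x := (gsq_nonneg F x).trans (hFG x)
    by_cases hx : x ∈ ball (0 : EE 8) (2 * R)
    · have hb := br_pos x
      have hN : (br x)⁻¹ ^ 2 * ‖x‖ ^ 2 = 1 - (br x)⁻¹ ^ 2 := by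
        have := br_sq x
        field_simp
        linarith
      have hp2 : psi v x ^ 2 = 2 * (en v x + PP v x) := by rw [en_eq hv, PP]; ring
      have ho : ‖∇ v x‖ ^ 2 = en v x - PP v x := by have := en_sub hv x; linarith
      have hP0 := hB.PP_nonneg hv x
      have hP4 : 4 * PP v x ≤ psi v x ^ 2 := by
        have := tt_le_one v x
        rw [PP]; nlinarith [sq_nonneg (psi v x)]
      obtain ⟨c1, -, c3⟩ := hcut R hR0 x
      rw [gsq_eq] at c1 c3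
      obtain ⟨d1, d2⟩ := cut_scale hC0 hR0 (norm_nonneg _) c1 c3
      have hg := hFG x
      rw [gsq_eq] at hg
      have := pw (ε := η / 3) (by positivity) hδ0 hεδ (inv_pos.2 hb).le (cut_nonneg R x)
        (cut_le_one R x) (hF1 x) hg (norm_nonneg _) hP0 hP4 (psi_sq_le v x)
        (o := ‖∇ v x‖) (by linarith) (by linarith) (norm_nonneg _) (norm_nonneg _)
        (abs_rad (∇ F x) x) (abs_rad (∇ (cut R) x) x) (abs_rad (∇ v x) x)
        (abs_real_inner_le_norm _ _) (abs_real_inner_le_norm _ _) (abs_real_inner_le_norm _ _) d1 d2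
      rw [indicator_of_mem hx, Real.norm_eq_abs, gin_zeta, SS_eq v hF, idn hp2 ho hN]
      refine this.trans (le_of_eq ?_)
      rw [hC1, hC2, zeta]
      simp only [div_eq_mul_inv, ← inv_pow]
      ring
    · have hx' : 2 * R ≤ ‖x‖ := by simpa using hx
      rw [indicator_of_notMem hx, hI0 x hx', hS0 x hx']
      have := zeta_nonneg R x
      simp only [mul_zero, add_zero, norm_zero]
      positivity
  have e1 : ∫ x, gin F (zeta R) x * psi v x ^ 2 =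
      ∫ x, (gin F (zeta R) x * psi v x ^ 2 + 10 * SS v F R x) := by
    rw [integral_add iI (iS.const_mul _), integral_const_mul, hSint]; simp
  have iB' := (integrable_indicator_iff measurableSet_ball).2 iB
  have e2 := norm_integral_le_of_norm_le ((iG.const_mul η).add iB') (Eventually.of_forall key)
  rw [← e1, Real.norm_eq_abs] at e2
  refine e2.trans ?_
  simp only [Pi.add_apply]
  rw [integral_add (iG.const_mul η) iB', integral_const_mul, integral_indicator measurableSet_ball,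
    integral_add (iM.const_mul _) (iE.const_mul _), integral_const_mul, integral_const_mul]
  have f1 := hCM (2 * R) (by linarith)
  have f2 := hE 0 (2 * R) (by linarith)
  have f3 : C2 * R⁻¹ ^ 7 * (Θ * (2 * R) ^ 7) = C2 * (2 ^ 7 * Θ) := by field_simp
  have f4 := mul_le_mul_of_nonneg_left f1 hC10
  have f5 := mul_le_mul_of_nonneg_left f2 (show 0 ≤ C2 * R⁻¹ ^ 7 by positivity)
  linarith

end Crest.Agent.N067.X7
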