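import Crest.Agent.N067.X7.Basic

/-! # Row 67, X7: Mon
ONE test field. Centre y, w = x - y, b = br w, k = cut R w (use a translated copy). X_j = k b^-7 w_j.
pdv i X_j = k b^-7 delta_ij - 7 k b^-9 w_i w_j + b^-7 w_j pdv i k.  With |grad v|^2 = en - PP (en_sub):
en * div X - sum v_i v_j pdv i X_j = k [7 en b^-9 + PP b^-7 + 7 <grad v,w>^2 b^-9] + b^-7 [en <w,grad k> - <grad v,grad k><grad v,w>]
(8 en b^-7 - 7 en |w|^2 b^-9 - |grad v|^2 b^-7 = 7 en b^-9 + PP b^-7).  The last bracket lives on R <= |w| <= 2R and is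
<= C R^-7 en (|grad v|^2 <= 2 en, |grad k| <= C/R, |w| <= 2R, b >= R).  So
int k [...] <= C R^-7 int_{ball y (2R)} en   (KEY, all terms >= 0 by Modica).
mon: y = 0, k = 1 on ball R, EnB at radius 2R.  dens: R = rho/2 >= 1/2; |grad v| <= L (RegStmt k=1) gives |v| <= 1/2 and en >= 9/64 on
ball y r0, r0 = min(1/2, 1/(2L)), where k = 1 and b <= 2; en <= psi^2/2 (Bas.en_le).
-/

set_option autoImplicit false

open MeasureTheory Laplacian InnerProductSpace Topology Filter Set Metric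
open scoped RealInnerProductSpace ContDiff Gradient

namespace Crest.Agent.N067.X7

open Crest.Agent.R077

namespace Mon'

/-- the test field, centred at the origin -/
noncomputable def Xf (R : ℝ) (j : Fin 8) (w : EE 8) : ℝ := cut R w * (br w)⁻¹ ^ 7 * w j

/-- the monotone quantity -/
noncomputable def Fm (v : EE 8 → ℝ) (y x : EE 8) : ℝ :=
  en v x / br (x - y) ^ 9 + PP v x / br (x - y) ^ 7 + ⟪∇ v x, x - y⟫ ^ 2 / br (x - y) ^ 9

theorem contDiff_inv : ContDiff ℝ ∞ fun w : EE 8 => (br w)⁻¹ ^ 7 :=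
  (contDiff_br.inv fun x => (br_pos x).ne').pow 7

theorem contDiff_Xf (R : ℝ) (j : Fin 8) : ContDiff ℝ ∞ (Xf R j) :=
  ((contDiff_cut' R).mul contDiff_inv).mul (contDiff_euclidean.1 contDiff_id j)

theorem pdv_Xf (R : ℝ) (i j : Fin 8) (w : EE 8) : pdv i (Xf R j) w =
    (br w)⁻¹ ^ 7 * ((∇ (cut R) w) i * w j) - 7 * cut R w * (br w)⁻¹ ^ 9 * (w i * w j) +
      if j = i then cut R w * (br w)⁻¹ ^ 7 else 0 := by
  have h1 := (contDiff_cut' (n := 8) R).differentiable (by simp) w
  have h2 := contDiff_inv.differentiable (by simp) w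
  have h3 : DifferentiableAt ℝ (fun y : EE 8 => y j) w :=
    (contDiff_euclidean.1 (contDiff_id (n := 1)) j).differentiable (by simp) w
  have h4 := pdv_comp ((hasDerivAt_inv (br_pos w).ne').fun_pow 7)
    (contDiff_br.differentiable (by simp) w) i
  unfold Xf
  rw [pdv_mul (f := fun w => cut R w * (br w)⁻¹ ^ 7) (h1.mul h2) h3, pdv_mul h1 h2, h4, pdv_br,
    pdv_coord, grad_apply]
  have := (br_pos w).ne'
  split_ifs <;> simp <;> field_simp <;> ring

theorem alg (a κ w : EE 8) (e p q r : ℝ) {D : Fin 8 → Fin 8 → ℝ}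
    (hD : ∀ i j, D i j = p * (κ i * w j) - q * (w i * w j) + if j = i then r else 0) :
    e * ∑ i, D i i - ∑ i, ∑ j, a i * a j * D i j =
      e * (p * ⟪κ, w⟫ - q * ‖w‖ ^ 2 + 8 * r) -
        (p * (⟪a, κ⟫ * ⟪a, w⟫) - q * ⟪a, w⟫ ^ 2 + r * ‖a‖ ^ 2) := by
  have e1 : ∀ (c : ℝ) (f g : EE 8), ∑ i, ∑ j, a i * a j * (c * (f i * g j)) =
      c * ((∑ i, a i * f i) * ∑ j, a j * g j) := fun c f g => by
    rw [Finset.sum_mul_sum, Finset.mul_sum]
    exact Finset.sum_congr rfl fun i _ => by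
      rw [Finset.mul_sum]; exact Finset.sum_congr rfl fun j _ => by ring
  simp only [hD, ← real_inner_self_eq_norm_sq, inner_eq_sum, mul_add, mul_sub,
    Finset.sum_add_distrib, Finset.sum_sub_distrib, e1, mul_ite, mul_zero, Finset.sum_ite_eq',
    Finset.mem_univ, if_true, Finset.sum_const, Finset.card_univ, Fintype.card_fin]
  simp only [← Finset.mul_sum, ← Finset.sum_mul, nsmul_eq_mul]
  push_cast; ring

theorem cont_Fm {v : EE 8 → ℝ} (h : Sol v) (y : EE 8) : Continuous (Fm v y) := by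
  have h1 := cont_en h
  have h2 := cont_psi h
  have h3 := h.continuous_tt
  have h4 := St.continuous_grad (contDiff_infty.1 h.sm 1)
  have h5 : Continuous fun x : EE 8 => br (x - y) := contDiff_br.continuous.comp (by fun_prop)
  have h6 := fun k (x : EE 8) => (pow_pos (br_pos (x - y)) k).ne'
  unfold Fm PP
  exact ((h1.div (h5.pow 9) (h6 9)).add (Continuous.div (by fun_prop) (h5.pow 7) (h6 7))).add
    (Continuous.div (by fun_prop) (h5.pow 9) (h6 9))

theorem key (hB : Bas) (hS : StressStmt) : ∃ C : ℝ, 0 < C ∧ ∀ (v : EE 8 → ℝ) (y : EE 8) (R r : ℝ),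
    Sol v → 0 < R → r ≤ R → ∫ x in ball y r, Fm v y x ≤ C / R ^ 7 * ∫ x in ball y (2 * R), en v x := by
  obtain ⟨C, hC, hk⟩ := exists_gsq_cut 8
  refine ⟨6 * (C + 1), by positivity, fun v y R r h hR hr => ?_⟩
  have hX : ∀ j, ContDiff ℝ 1 fun x => Xf R j (x - y) := fun j =>
    (contDiff_infty.1 (contDiff_Xf R j) 1).comp (contDiff_id.sub contDiff_const)
  have hfar : ∀ x, x ∉ closedBall y (2 * R) → 2 * R ≤ ‖x - y‖ := fun x hx =>
    (not_le.1 (mt mem_closedBall_iff_norm.2 hx)).le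
  have h0 := hS 8 v (fun j x => Xf R j (x - y)) h hX fun j =>
    HasCompactSupport.intro (isCompact_closedBall y (2 * R)) fun x hx => by
      simp [Xf, cut_zero hR (hfar x hx)]
  set G : EE 8 → ℝ := fun x => en v x * ∑ i, pdv i (fun x => Xf R i (x - y)) x -
    ∑ i, ∑ j, pdv i v x * pdv j v x * pdv i (fun x => Xf R j (x - y)) x with hG
  have hGc : Continuous G := by
    have h1 := cont_en h
    have h2 := fun i => St.continuous_pdv (contDiff_infty.1 h.sm 1) i
    have h3 := fun i j => St.continuous_pdv (hX j) i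
    simp only [hG]; fun_prop
  have hGe : ∀ x, G x = cut R (x - y) * (Fm v y x + 6 * (br (x - y))⁻¹ ^ 9 *
      (en v x + ⟪∇ v x, x - y⟫ ^ 2)) + (br (x - y))⁻¹ ^ 7 * (en v x * ⟪∇ (cut R) (x - y), x - y⟫ -
        ⟪∇ v x, ∇ (cut R) (x - y)⟫ * ⟪∇ v x, x - y⟫) := fun x => by
    have h1 := alg (∇ v x) (∇ (cut R) (x - y)) (x - y) (en v x) _ _ _
      (D := fun i j => pdv i (fun x => Xf R j (x - y)) x) fun i j =>
        (congrArg (fun T : EE 8 →L[ℝ] ℝ => T (ev i)) (fderiv_comp_sub y)).trans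
          (pdv_Xf R i j (x - y))
    simp only [grad_apply] at h1
    have h2 : ‖x - y‖ ^ 2 = br (x - y) ^ 2 - 1 := by rw [br_sq]; ring
    have h3 : ‖∇ v x‖ ^ 2 = en v x - PP v x := by rw [← en_sub h]; ring
    have := (br_pos (x - y)).ne'
    refine h1.trans ?_
    rw [h2, h3, Fm]; field_simp; ring
  have hz : ∀ w : EE 8, gsq (cut R) w = 0 → ∇ (cut R) w = 0 := fun w hw => by
    rwa [gsq_eq, sq_eq_zero_iff, norm_eq_zero] at hw
  have hG0 : ∀ x, 2 * R ≤ ‖x - y‖ → G x = 0 := fun x hx => by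
    simp [hGe, cut_zero hR hx, hz _ ((hk R hR _).2.1 hx)]
  have hGi : Integrable G := hGc.integrable_of_hasCompactSupport
    (HasCompactSupport.intro (isCompact_closedBall y (2 * R)) fun x hx => hG0 x (hfar x hx))
  have hE := (intOn (f := fun x => 6 * (C + 1) / R ^ 7 * en v x) (continuous_const.mul (cont_en h))
    (y := y) (r := 2 * R) Subset.rfl).integrable_indicator measurableSet_ball
  rw [← integral_const_mul, ← integral_indicator measurableSet_ball,
    ← integral_indicator measurableSet_ball, ← zero_add (∫ x, indicator (ball y (2 * R)) _ x), ← h0,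
    ← integral_add hGi hE]
  refine integral_mono ((intOn (cont_Fm h y) Subset.rfl).integrable_indicator measurableSet_ball)
    (hGi.add hE) fun x => ?_
  have he := en_nonneg v x
  have hb := br_pos (x - y)
  have hF : 0 ≤ Fm v y x := by have := hB.PP_nonneg h x; unfold Fm; positivity
  have hI : 0 ≤ indicator (ball y (2 * R)) (fun x => 6 * (C + 1) / R ^ 7 * en v x) x :=
    indicator_nonneg (fun z _ => by have := en_nonneg v z; positivity) x
  have h6 : 0 ≤ 6 * (br (x - y))⁻¹ ^ 9 * (en v x + ⟪∇ v x, x - y⟫ ^ 2) := by positivity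
  beta_reduce
  rcases lt_or_ge ‖x - y‖ R with h1 | h1
  · rw [hGe, cut_one hR h1.le, hz _ ((hk R hR _).2.2 h1)]
    have := indicator_le_self' (s := ball y r) (f := Fm v y) (fun _ _ => ?_) x
    · simp only [inner_zero_left, inner_zero_right]; linarith
    · have := hB.PP_nonneg h ‹_›; have := en_nonneg v ‹_›; have := br_pos (‹_› - y)
      unfold Fm; positivity
  rw [indicator_of_notMem (fun hx => by linarith [mem_ball_iff_norm.1 hx])]
  rcases le_or_gt (2 * R) ‖x - y‖ with h2 | h2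
  · rw [hG0 x h2, zero_add]; exact hI
  rw [indicator_of_mem (mem_ball_iff_norm.2 h2), hGe]
  have k1 : ‖∇ (cut R) (x - y)‖ ≤ (C + 1) / R := by
    refine (abs_le_of_sq_le_sq' ?_ (by positivity)).2
    rw [← gsq_eq, div_pow]
    exact (hk R hR _).1.trans (by gcongr; nlinarith)
  have k2 : ‖∇ (cut R) (x - y)‖ * ‖x - y‖ ≤ 2 * (C + 1) :=
    (mul_le_mul k1 h2.le (norm_nonneg _) (by positivity)).trans_eq (by field_simp)
  have k3 : ‖∇ v x‖ ^ 2 ≤ 2 * en v x := by unfold en; nlinarith [sq_nonneg (1 - v x ^ 2)]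
  have k4 := (abs_le.1 ((abs_real_inner_le_norm _ _).trans k2)).1
  have k5 : ⟪∇ v x, ∇ (cut R) (x - y)⟫ * ⟪∇ v x, x - y⟫ ≤ 2 * en v x * (2 * (C + 1)) := by
    refine (le_abs_self _).trans ?_
    rw [abs_mul]
    calc _ ≤ ‖∇ v x‖ * ‖∇ (cut R) (x - y)‖ * (‖∇ v x‖ * ‖x - y‖) := by
          gcongr <;> exact abs_real_inner_le_norm _ _
      _ = ‖∇ v x‖ ^ 2 * (‖∇ (cut R) (x - y)‖ * ‖x - y‖) := by ring
      _ ≤ _ := by gcongr
  have k6 : (br (x - y))⁻¹ ^ 7 ≤ R⁻¹ ^ 7 := by gcongr; exact h1.trans (norm_le_br _)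
  have k7 := mul_le_mul_of_nonneg_left (show -(6 * (C + 1) * en v x) ≤ en v x *
    ⟪∇ (cut R) (x - y), x - y⟫ - ⟪∇ v x, ∇ (cut R) (x - y)⟫ * ⟪∇ v x, x - y⟫ by nlinarith)
    (show 0 ≤ (br (x - y))⁻¹ ^ 7 by positivity)
  have k8 := mul_le_mul_of_nonneg_right k6 (show 0 ≤ 6 * (C + 1) * en v x by positivity)
  have k9 := mul_nonneg (cut_nonneg R (x - y)) (add_nonneg hF h6)
  rw [div_eq_mul_inv, ← inv_pow]
  linarith

end Mon'

open Mon' in
theorem dens (hB : Bas) (hS : StressStmt) : DensStmt := by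
  obtain ⟨C, hC, hk⟩ := key hB hS
  obtain ⟨L, hL⟩ := hB.reg 8 1
  set r : ℝ := 1 / (2 * (|L| + 1)) with hr
  have r0 : 0 < r := by positivity
  have r1 : (|L| + 1) * r = 1 / 2 := by rw [hr]; field_simp
  have r2 : r ≤ 1 / 2 := by nlinarith [abs_nonneg L]
  have hV : 0 < volume.real (ball (0 : EE 8) r) :=
    ENNReal.toReal_pos (measure_ball_pos _ _ r0).ne' measure_ball_lt_top.ne
  refine ⟨9 / 64 / 2 ^ 9 * volume.real (ball (0 : EE 8) r) / (64 * C), by positivity,
    fun v y h hy ρ hρ => ?_⟩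
  have h1 := hk v y (ρ / 2) r h (by linarith) (by linarith)
  have h2 : ∫ x in ball y (2 * (ρ / 2)), en v x ≤ 1 / 2 * mu v (ball y ρ) fun _ => 1 := by
    rw [mul_div_cancel₀ _ two_ne_zero, mu, ← integral_const_mul]
    exact setIntegral_mono_on (intOn (cont_en h) Subset.rfl)
      (intOn (continuous_const.mul (continuous_const.mul ((cont_psi h).pow 2))) Subset.rfl)
      measurableSet_ball fun x _ => by linarith [hB.en_le h x]
  have h3 : 9 / 64 / 2 ^ 9 * volume.real (ball y r) ≤ ∫ x in ball y r, Fm v y x := by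
    refine setIntegral_ge_of_const_le_real measurableSet_ball measure_ball_lt_top.ne
      (fun x hx => ?_) (intOn (cont_Fm h y) Subset.rfl)
    have hx' := mem_ball_iff_norm.1 hx
    have a1 := Convex.norm_image_sub_le_of_norm_fderiv_le (𝕜 := ℝ) (C := |L| + 1) (f := v)
      (fun z _ => h.sm.differentiable (by simp) z) (fun z _ => by
        have := (hL v h.isSol).2 z
        rw [norm_iteratedFDeriv_one] at this
        linarith [le_abs_self L]) convex_univ (mem_univ y) (mem_univ x)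
    rw [hy, sub_zero, Real.norm_eq_abs] at a1
    have a2 : |v x| ≤ 1 / 2 := a1.trans (r1 ▸ by gcongr)
    have a3 : 9 / 64 ≤ en v x := by
      have : v x ^ 2 ≤ 1 / 4 := by nlinarith [sq_abs (v x), abs_nonneg (v x)]
      unfold en; nlinarith [sq_nonneg ‖∇ v x‖]
    have a4 : br (x - y) ≤ 2 := by linarith [br_le (x - y)]
    have hb := br_pos (x - y)
    have := hB.PP_nonneg h x
    refine le_add_of_le_of_nonneg (le_add_of_le_of_nonneg ?_ (by positivity)) (by positivity)
    gcongr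
  rw [Measure.addHaar_real_ball_center] at h3
  have h4 := (h3.trans h1).trans (mul_le_mul_of_nonneg_left h2 (by positivity))
  rw [div_mul_eq_mul_div, div_le_iff₀ (by positivity)]
  refine (mul_le_mul_of_nonneg_right h4 (by positivity)).trans_eq ?_
  field_simp; ring

open Mon' in
theorem mon (hB : Bas) (hS : StressStmt) : MonStmt := by
  obtain ⟨C, hC, hk⟩ := key hB hS
  refine fun v Θ h hE => ⟨C * Θ * 2 ^ 7, fun R hR => ?_⟩
  have h1 := hk v 0 R R h (by linarith) le_rfl
  simp only [Fm, sub_zero] at h1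
  refine (h1.trans (mul_le_mul_of_nonneg_left (hE 0 _ (by linarith)) (by positivity))).trans_eq ?_
  field_simp

end Crest.Agent.N067.X7
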