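import Crest.Agent.N067.X7.Basic

/-! # Row 67, X7: Sig
s = sig u: smooth, 0 < s (Sol.pdv_dd + MonoLast), s <= |grad d| <= 1, Lm s = -q s (DEqStmt).
(a) F = s - s^2/4: -Lm F = (1 - s/2) q s + gsq s / 2, gsq F <= gsq s =: G.  WeakStmt + KStmt (eta = 1/4):
 int (q s + gsq s) zeta psi^2 <= C uniformly in R.
(b) F = t s^2: Lm F = s^2 (2q(1-t) - 2 hsq) + t(-2 q s^2 + 2 gsq s) + 4 s gin t s; gsq t <= 4 hsq (gsq_gsq_le, |grad d| <= 1);
 gsq F <= 8 s^2 hsq + 8 gsq s =: G; so int hsq s^2 zeta psi^2 <= C.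
(c) f = curv u s * psi^2 >= 0 continuous with int_{ball R} f br^-5 <= C for all R: f br^-5 is integrable
 (integrableOn_univ via integrableOn_iUnion / monotone convergence); r^-5 int_{ball r} f <= r^-5 int_{ball r1} f + 32 int_{|x|>=r1} f br^-5
 (br <= 2r on ball r, r >= 1) -> small.
-/

set_option autoImplicit false

open MeasureTheory Laplacian InnerProductSpace Topology Filter Set Metric
open scoped RealInnerProductSpace ContDiff Gradient

namespace Crest.Agent.N067.X7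

open Crest.Agent.R077

namespace Sig'

variable {n : ℕ} {v f g : EE n → ℝ} {x : EE n}

theorem Lm_add (hf : ContDiffAt ℝ 2 f x) (hg : ContDiffAt ℝ 2 g x) (c : ℝ) :
    Lm v (fun y => f y + c * g y) x = Lm v f x + c * Lm v g x := by
  have h1 := hf.differentiableAt (by norm_num)
  have h2 := hg.differentiableAt (by norm_num)
  simp only [Lm, ← gin_eq]
  rw [lap_add' hf (contDiffAt_const.mul hg), lap_const_mul hg,
    gin_add_right h1 (h2.const_mul c), gin_const_mul_right h2]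
  ring

theorem Lm_mul (hf : ContDiffAt ℝ 2 f x) (hg : ContDiffAt ℝ 2 g x) :
    Lm v (fun y => f y * g y) x = Lm v f x * g x + 2 * gin f g x + f x * Lm v g x := by
  simp only [Lm, ← gin_eq]
  rw [lap_mul' hf hg, gin_mul_right (hf.differentiableAt (by norm_num))
    (hg.differentiableAt (by norm_num))]
  ring

theorem cont_Lm (hB : Bas) (h : Sol v) (hf : ContDiff ℝ ∞ f) : Continuous (Lm v f) := by
  have h1 : Continuous (Δ f) := continuous_iff_continuousAt.2 fun x =>
    (contDiffAt_lap (m := 0) (contDiff_infty.1 hf 2).contDiffAt (by norm_num)).continuousAt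
  have h2 := cont_gin (contDiff_infty.1 (hB.dd_smooth h) 1) (contDiff_infty.1 hf 1)
  have h3 := h.sm.continuous
  have e : Lm v f = fun x => (Δ f) x - 2 * Real.sqrt 2 * v x * gin (dd v) f x :=
    funext fun x => by rw [Lm, gin_eq]
  rw [e]; fun_prop

theorem tt_eq (v : EE n → ℝ) : tt v = fun x => 1 - gsq (dd v) x :=
  funext fun x => by rw [tt, gsq_eq]

theorem sm_tt (hB : Bas) (h : Sol v) : ContDiff ℝ ∞ (tt v) := by
  rw [tt_eq]
  exact contDiff_const.sub (ContDiff.sum fun i _ =>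
    (St.contDiff_pdv_top (hB.dd_smooth h) i).pow 2)

theorem gsq_tt (hB : Bas) (h : Sol v) (x : EE n) : gsq (tt v) x ≤ 4 * hsq (dd v) x := by
  have h1 : gsq (tt v) x = gsq (gsq (dd v)) x := by
    rw [tt_eq]; simp only [gsq.eq_1 _ x, pdv_const_sub, neg_sq]
  have h2 := gsq_gsq_le (contDiff_infty.1 (hB.dd_smooth h) 2).contDiffAt (x := x)
  have h3 := hB.tt_nonneg h x
  rw [tt_eq] at h3
  nlinarith [hsq_nonneg (dd v) x]

/-- the test function `s - s²/4 + t s²/40` -/
noncomputable def FF (v s : EE n → ℝ) (y : EE n) : ℝ :=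
  (s y + (-1 / 4) * (s y * s y)) + 1 / 40 * (tt v y * (s y * s y))

theorem test (hB : Bas) (h : Sol v) {s : EE n → ℝ} (hs : ContDiff ℝ ∞ s)
    (h0 : ∀ x, 0 ≤ s x ∧ s x ≤ 1) (hL : ∀ x, Lm v s x = -qq v x * s x) :
    ContDiff ℝ ∞ (FF v s) ∧ ∀ x, |FF v s x| ≤ 1 ∧
      gsq (FF v s) x ≤ 3 * ((hsq (dd v) x + qq v x) * s x ^ 2 + gsq s x) ∧
      (hsq (dd v) x + qq v x) * s x ^ 2 + gsq s x ≤ -40 * Lm v (FF v s) x := by
  have ht := sm_tt hB h
  refine ⟨(hs.add (contDiff_const.mul (hs.mul hs))).add (contDiff_const.mul (ht.mul (hs.mul hs))),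
    fun x => ?_⟩
  have s2 : ContDiffAt ℝ 2 s x := (contDiff_infty.1 hs 2).contDiffAt
  have t2 : ContDiffAt ℝ 2 (tt v) x := (contDiff_infty.1 ht 2).contDiffAt
  have s1 := s2.differentiableAt (by norm_num)
  have t1 := t2.differentiableAt (by norm_num)
  obtain ⟨a0, a1⟩ := h0 x
  have b0 := hB.tt_nonneg h x
  have b1 := tt_le_one v x
  have q0 := hB.qq_nonneg h x
  have g0 := gsq_nonneg s x
  have k0 := hsq_nonneg (dd v) x
  have gt := gsq_tt hB h x
  have ss : s x ^ 2 ≤ s x := by nlinarith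
  refine ⟨?_, ?_, ?_⟩
  · have := mul_nonneg b0 (sq_nonneg (s x))
    have := mul_le_mul_of_nonneg_right b1 (sq_nonneg (s x))
    rw [FF, abs_le]
    constructor <;> nlinarith
  · have e : ∀ i, pdv i (FF v s) x =
        (1 - s x / 2 + tt v x * s x / 20) * pdv i s x + s x ^ 2 / 40 * pdv i (tt v) x := fun i => by
      unfold FF
      have s3 := s1.fun_mul s1
      rw [pdv_add (s1.fun_add (s3.const_mul _)) ((t1.fun_mul s3).const_mul _),
        pdv_add s1 (s3.const_mul _), pdv_const_mul s3,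
        pdv_const_mul (t1.fun_mul s3), pdv_mul t1 s3, pdv_mul s1 s1]
      ring
    have h1 : gsq (FF v s) x ≤ 2 * (1 - s x / 2 + tt v x * s x / 20) ^ 2 * gsq s x +
        2 * (s x ^ 2 / 40) ^ 2 * gsq (tt v) x := by
      simp only [gsq, e, Finset.mul_sum, ← Finset.sum_add_distrib]
      exact Finset.sum_le_sum fun i _ => by
        nlinarith [sq_nonneg ((1 - s x / 2 + tt v x * s x / 20) * pdv i s x -
          s x ^ 2 / 40 * pdv i (tt v) x)]
    have h2 : (1 - s x / 2 + tt v x * s x / 20) ^ 2 ≤ 1 := by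
      have := mul_nonneg b0 a0
      have := mul_le_mul_of_nonneg_right b1 a0
      exact pow_le_one₀ (by linarith) (by linarith)
    have h3 : (s x ^ 2 / 40) ^ 2 ≤ s x ^ 2 / 8 := by nlinarith [sq_nonneg (s x)]
    have h4 := mul_le_mul h3 gt (gsq_nonneg _ _) (by positivity)
    have h5 := mul_le_mul_of_nonneg_right h2 g0
    have h6 := mul_nonneg q0 (sq_nonneg (s x))
    have h7 := mul_nonneg k0 (sq_nonneg (s x))
    nlinarith
  · have e1 : Lm v (fun y => s y * s y) x = -2 * qq v x * s x ^ 2 + 2 * gsq s x := by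
      rw [Lm_mul s2 s2, hL, gin_self]; ring
    have e2 := ((hB.deq n v h).2 x).2.2
    have e3 : Lm v (FF v s) x = -qq v x * s x + (-1 / 4) * (-2 * qq v x * s x ^ 2 + 2 * gsq s x) +
        1 / 40 * (2 * (qq v x * (1 - tt v x) - hsq (dd v) x) * s x ^ 2 +
          4 * (s x * gin (tt v) s x) + tt v x * (-2 * qq v x * s x ^ 2 + 2 * gsq s x)) := by
      unfold FF
      rw [Lm_add (s2.add (contDiffAt_const.mul (s2.mul s2))) (t2.mul (s2.mul s2)),
        Lm_add s2 (s2.mul s2), Lm_mul t2 (s2.mul s2), e1, hL, gin_mul_right s1 s1, ← e2]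
      ring
    have h1 : 4 * (s x * gin (tt v) s x) ≤ hsq (dd v) x * s x ^ 2 + 16 * gsq s x := by
      have h2 := (gin_sq_le (tt v) s x).trans (mul_le_mul_of_nonneg_right gt g0)
      have h3 := mul_le_mul_of_nonneg_left h2 (sq_nonneg (s x))
      refine le_of_sq_le_sq ?_ (by positivity)
      nlinarith [sq_nonneg (hsq (dd v) x * s x ^ 2 - 16 * gsq s x)]
    have h2 := mul_le_mul_of_nonneg_left ss q0
    have h3 := mul_nonneg b0 (mul_nonneg q0 (sq_nonneg (s x)))
    have h4 := mul_le_mul_of_nonneg_right b1 g0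
    have h5 := mul_nonneg q0 (sq_nonneg (s x))
    rw [e3]
    nlinarith

/-- a bounded weighted mass gives `o(r⁵)` -/
theorem small (h : Sol v) (hf : Continuous f) (h0 : ∀ x, 0 ≤ f x) {C : ℝ}
    (hC : ∀ R, 1 ≤ R → mu v (ball 0 R) (fun x => f x / br x ^ 5) ≤ C) {ε : ℝ} (hε : 0 < ε) :
    ∃ r1 : ℝ, ∀ r, r1 ≤ r → mu v (ball 0 r) f ≤ ε ^ 2 * r ^ 5 := by
  have hg : Continuous fun x => f x / br x ^ 5 :=
    hf.div (contDiff_br.continuous.pow 5) fun x => (pow_pos (br_pos x) 5).ne'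
  set S := (fun R => mu v (ball 0 R) fun x => f x / br x ^ 5) '' Ici 1 with hS
  have hb : BddAbove S := ⟨C, by rintro _ ⟨R, hR, rfl⟩; exact hC R hR⟩
  obtain ⟨_, ⟨R, hR, rfl⟩, h1⟩ := exists_lt_of_lt_csSup (s := S) ⟨_, 1, mem_Ici.2 le_rfl, rfl⟩
    (sub_lt_self (sSup S) (by positivity : 0 < ε ^ 2 / 64))
  refine ⟨max R (2 * mu v (ball 0 R) f / ε ^ 2), fun r hr => ?_⟩
  have hRr : R ≤ r := (le_max_left _ _).trans hr
  have hr1 : 1 ≤ r := le_trans hR hRr
  have h2 := le_csSup hb ⟨r, hr1, rfl⟩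
  have h3 : ∀ {k : EE n → ℝ}, Continuous k →
      mu v (ball 0 r \ ball 0 R) k = mu v (ball 0 r) k - mu v (ball 0 R) k := fun hk =>
    setIntegral_sdiff measurableSet_ball (intOn_mu h hk Subset.rfl) (ball_subset_ball hRr)
  have h4 : mu v (ball 0 r \ ball 0 R) f ≤
      mu v (ball 0 r \ ball 0 R) fun x => (2 * r) ^ 5 * (f x / br x ^ 5) :=
    mu_mono_fun h hf (hg.const_mul _) (measurableSet_ball.diff measurableSet_ball)
      sdiff_subset fun x hx => by
        have h5 : br x ≤ 2 * r := by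
          have := br_le x
          have := mem_ball_zero_iff.1 hx.1
          linarith
        have h6 := br_pos x
        rw [← mul_div_assoc, le_div_iff₀ (by positivity), mul_comm]
        exact mul_le_mul_of_nonneg_right (pow_le_pow_left₀ h6.le h5 5) (h0 x)
  have h5 : (mu v (ball 0 r \ ball 0 R) fun x => (2 * r) ^ 5 * (f x / br x ^ 5)) =
      (2 * r) ^ 5 * mu v (ball 0 r \ ball 0 R) fun x => f x / br x ^ 5 := by
    simp only [mu, mul_assoc, integral_const_mul]
  rw [h5, h3 hf, h3 hg] at h4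
  have h6 := (le_max_right _ _).trans hr
  rw [div_le_iff₀ (by positivity)] at h6
  have h7 := mul_le_mul_of_nonneg_right (le_self_pow₀ hr1 (by norm_num : 5 ≠ 0)) (sq_nonneg ε)
  have h8 := mul_le_mul_of_nonneg_left (show (mu v (ball 0 r) fun x => f x / br x ^ 5) -
    (mu v (ball 0 R) fun x => f x / br x ^ 5) ≤ ε ^ 2 / 64 by linarith)
    (by positivity : 0 ≤ (2 * r) ^ 5)
  linarith

end Sig'

open Sig' in
theorem sig_core (hB : Bas) (hW : WeakStmt) (hK : KStmt) {u : EE 8 → ℝ} {Θ : ℝ} (h : Sol u)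
    (hm : MonoLast (n := 7) u) (hE : EnB u Θ) :
    (ContDiff ℝ ∞ (sig u) ∧ (∀ x, 0 < sig u x ∧ sig u x ≤ 1) ∧ ∀ x, Lm u (sig u) x ≤ 0) ∧
    ∀ ε : ℝ, 0 < ε → ∃ r1 : ℝ, ∀ r, r1 ≤ r → mu u (ball 0 r) (curv u (sig u)) ≤ ε ^ 2 * r ^ 5 := by
  have hs : ContDiff ℝ ∞ (sig u) := St.contDiff_pdv_top (hB.dd_smooth h) _
  have h0 : ∀ x, 0 < sig u x ∧ sig u x ≤ 1 := fun x => by
    constructor
    · rw [sig, h.pdv_dd]
      exact mul_pos (div_pos (by positivity) (h.psi_pos x)) (hm x)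
    · rw [sig, ← grad_apply]
      exact ((le_abs_self _).trans (PiLp.norm_apply_le (∇ (dd u) x) _)).trans (hB.norm_grad_le h x)
  have hL : ∀ x, Lm u (sig u) x = -qq u x * sig u x := fun x => ((hB.deq 8 u h).2 x).2.1 _
  refine ⟨⟨hs, h0, fun x => ?_⟩, fun ε hε => ?_⟩
  · rw [hL, neg_mul, neg_nonpos]; exact mul_nonneg (hB.qq_nonneg h x) (h0 x).1.le
  obtain ⟨hF, hF'⟩ := test hB h hs (fun x => ⟨(h0 x).1.le, (h0 x).2⟩) hL
  have hc : Continuous (curv u (sig u)) :=
    (((cont_hsq (hB.dd_smooth h)).add h.continuous_qq).mul (hs.continuous.pow 2)).add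
      (cont_gsq (contDiff_infty.1 hs 1))
  have hn : ∀ x, 0 ≤ curv u (sig u) x := fun x => add_nonneg (mul_nonneg
    (add_nonneg (hsq_nonneg _ _) (hB.qq_nonneg h x)) (sq_nonneg _)) (gsq_nonneg _ _)
  obtain ⟨C, hC⟩ := hK u Θ h hE (1 / 240) (by norm_num)
  refine small h hc hn (C := 80 * C) (fun R hR => ?_) hε
  have hR0 : 0 < R := by linarith
  have hi : ∀ {k : EE 8 → ℝ}, Continuous k → Integrable fun x => k x * zeta R x * psi u x ^ 2 :=
    fun hk => ((hk.mul (contDiff_zeta R).continuous).mul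
      ((cont_psi h).pow 2)).integrable_of_hasCompactSupport ((cs_zeta hR0).mul_left.mul_right)
  have h1 := hC R hR _ (fun x => 3 * curv u (sig u) x) (contDiff_infty.1 hF 1)
    (fun x => (hF' x).1) (continuous_const.mul hc) fun x => (hF' x).2.1
  have h2 := hW 8 u _ (zeta R) h (contDiff_infty.1 hF 2) (contDiff_infty.1 (contDiff_zeta R) 1)
    (cs_zeta hR0)
  have h3 : ∫ x, curv u (sig u) x * zeta R x * psi u x ^ 2 ≤
      ∫ x, -40 * Lm u (FF u (sig u)) x * zeta R x * psi u x ^ 2 :=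
    integral_mono (hi hc) (hi (continuous_const.mul (cont_Lm hB h hF))) fun x =>
      mul_le_mul_of_nonneg_right (mul_le_mul_of_nonneg_right (hF' x).2.2 (zeta_nonneg R x))
        (sq_nonneg _)
  have h4 : mu u (ball 0 R) (fun x => curv u (sig u) x / br x ^ 5) ≤
      ∫ x, curv u (sig u) x * zeta R x * psi u x ^ 2 := by
    refine le_of_eq_of_le (setIntegral_congr_fun measurableSet_ball fun x hx => ?_)
      (setIntegral_le_integral (hi hc) (Eventually.of_forall fun x =>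
        mul_nonneg (mul_nonneg (hn x) (zeta_nonneg R x)) (sq_nonneg _)))
    simp only [zeta, cut_one hR0 (mem_ball_zero_iff.1 hx).le]
    ring
  simp only [mul_assoc, integral_const_mul] at h1 h2 h3 h4
  linarith [le_abs_self (∫ x, gin (FF u (sig u)) (zeta R) x * psi u x ^ 2)]

theorem sigS (hB : Bas) (hW : WeakStmt) (hK : KStmt) : SigStmt :=
  fun _ _ hu => sig_core hB hW hK hu.sol hu.mono hu.enb

end Crest.Agent.N067.X7
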