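import Crest.Agent.N067.A.All
import Crest.Agent.N067.X7.Weak
import Crest.Agent.N067.X7.Mon
import Crest.Agent.N067.X7.K
import Crest.Agent.N067.X7.Sig
import Crest.Agent.N067.E.Defs
import Crest.Agent.N067.K.PsiMass

/-! # Row 67: the exports `E.IStmt` and `LowStmt` (helper1) -/

set_option autoImplicit false

open MeasureTheory Laplacian InnerProductSpace Topology Filter Set Metric
open scoped RealInnerProductSpace ContDiff Gradient ENNReal

namespace Crest.Agent.N067

open Crest.Agent.R077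

theorem X7.bas : X7.Bas := ⟨reg, deq, modica, ballS⟩

theorem X7.densS : X7.DensStmt := X7.dens X7.bas X7.stress

theorem X7.kS : X7.KStmt := X7.kk X7.bas X7.stress (X7.mon X7.bas X7.stress)

/-- (i): the `σ`-weighted curvature is small at all large scales -/
theorem iS : E.IStmt := by
  intro u Θ h hm hE a R0 ha
  obtain ⟨⟨hs, -, -⟩, h2⟩ := X7.sig_core X7.bas (X7.weak X7.bas) X7.kS h hm hE
  obtain ⟨r1, hr⟩ := h2 (Real.sqrt a) (Real.sqrt_pos.2 ha)
  refine ⟨max R0 r1, le_max_left _ _, ?_⟩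
  set R := max R0 r1
  have h3 := hr R (le_max_right _ _)
  rw [Real.sq_sqrt ha.le] at h3
  have hd := X7.bas.dd_smooth h
  have hc : Continuous (X7.curv u (X7.sig u)) :=
    (((X7.cont_hsq hd).add h.continuous_qq).mul (hs.continuous.pow 2)).add
      (X7.cont_gsq (contDiff_infty.1 hs 1))
  have h4 : X7.mu u (ball 0 R) (fun x => X7.sig u x ^ 2 * hsq (dd u) x) ≤
      X7.mu u (ball 0 R) (X7.curv u (X7.sig u)) :=
    X7.mu_mono_fun h ((hs.continuous.pow 2).mul (X7.cont_hsq hd)) hc measurableSet_ball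
      Subset.rfl fun x _ => by
        have := h.qq_nonneg x
        have := gsq_nonneg (X7.sig u) x
        show X7.sig u x ^ 2 * hsq (dd u) x ≤ X7.curv u (X7.sig u) x
        unfold X7.curv
        nlinarith [mul_nonneg (h.qq_nonneg x) (sq_nonneg (X7.sig u x))]
  have h5 : R ^ 2 * X7.mu u (ball 0 R) (fun x => X7.sig u x ^ 2 * hsq (dd u) x) ≤
      R ^ 2 * (a * R ^ 5) := mul_le_mul_of_nonneg_left (h4.trans h3) (sq_nonneg _)
  calc _ = R ^ 2 * X7.mu u (ball 0 R) (fun x => X7.sig u x ^ 2 * hsq (dd u) x) := rfl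
    _ ≤ R ^ 2 * (a * R ^ 5) := h5
    _ = a * R ^ 7 := by ring

open PsiM in
/-- lower density of the shallow set at zeros -/
theorem low : LowStmt := by
  intro v Θ h hΘ hM
  obtain ⟨c, hc, hD⟩ := X7.densS
  obtain ⟨C, hC, hψ⟩ := psi_le 8
  obtain ⟨A, hA, hP⟩ := psiMass 8 v Θ 7 1 h hΘ (by norm_num) one_pos hM
  obtain ⟨j, hj0, hj⟩ : ∃ j : ℝ, 0 < j ∧ C * Real.exp (-j) * A ≤ c / 2 := by
    have h1 : Tendsto (fun j : ℝ => C * Real.exp (-j) * A) atTop (𝓝 (C * 0 * A)) :=
      (Real.tendsto_exp_neg_atTop_nhds_zero.const_mul C).mul_const A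
    rw [mul_zero, zero_mul] at h1
    obtain ⟨j, h2, h3⟩ := ((eventually_gt_atTop 0).and (h1.eventually_le_const (half_pos hc))).exists
    exact ⟨j, h2, h3⟩
  set w1 := volume (ball (0 : EE 8) 1) with hw1
  set w2 := volume (ball (0 : EE 8) (j + 1)) with hw2
  have hw1p : 0 < w1 := measure_ball_pos _ _ one_pos
  have hw2p : 0 < w2 := measure_ball_pos _ _ (by linarith)
  have hw1t : w1 ≠ ⊤ := measure_ball_lt_top.ne
  have hw2t : w2 ≠ ⊤ := measure_ball_lt_top.ne
  have hr1 : 0 < w1.toReal := ENNReal.toReal_pos hw1p.ne' hw1t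
  have hr2 : 0 < w2.toReal := ENNReal.toReal_pos hw2p.ne' hw2t
  refine ⟨c / 2 / 2 ^ 7 * (w1.toReal / w2.toReal), 2 * (j + 1), by positivity, by linarith,
    fun y ρ hy hρ => ?_⟩
  set r := ρ - (j + 1) with hr
  have hr1' : 1 ≤ r := by linarith
  have hrρ : ρ / 2 ≤ r := by linarith
  set N : Set (EE 8) := ball y r ∩ ⋃ z ∈ {z | v z = 0}, ball z j with hN
  have hNm : MeasurableSet N :=
    measurableSet_ball.inter (isOpen_biUnion fun _ _ => isOpen_ball).measurableSet
  set S : Set (EE 8) := Sh v ∩ ball y ρ with hS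
  -- the mass of the ball is carried by `N`
  have h1 : ENNReal.ofReal (c * r ^ 7) ≤ ∫⁻ x in ball y r, ENNReal.ofReal (psi v x ^ 2) := by
    have hcp : Continuous fun x => psi v x ^ 2 := (X7.cont_psi h).pow 2
    rw [← ofReal_integral_eq_lintegral_ofReal (X7.intOn hcp Subset.rfl)
      (Eventually.of_forall fun x => sq_nonneg _)]
    refine ENNReal.ofReal_le_ofReal ((hD v y h hy r hr1').trans (le_of_eq ?_))
    simp [X7.mu]
  have h2 : ∫⁻ x in ball y r, ENNReal.ofReal (psi v x ^ 2) ≤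
      ∫⁻ x in ball y r, (N.indicator 1 x +
        ENNReal.ofReal (C * Real.exp (-j)) * ENNReal.ofReal (psi v x ^ (1 : ℝ))) := by
    refine setLIntegral_mono' measurableSet_ball fun x hx => ?_
    have hp := h.psi_pos x
    by_cases hxN : x ∈ N
    · rw [indicator_of_mem hxN]
      refine le_add_right ?_
      have := X7.psi_le_one v x
      exact ENNReal.ofReal_le_one.2 (by nlinarith)
    · refine le_add_left ?_
      rw [← ENNReal.ofReal_mul (by positivity), Real.rpow_one]
      refine ENNReal.ofReal_le_ofReal ?_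
      have : psi v x ≤ C * Real.exp (-j) := hψ v h x j fun z hz hz0 =>
        hxN ⟨hx, mem_iUnion₂.2 ⟨z, hz0, mem_ball_comm.1 hz⟩⟩
      nlinarith
  have h3 : ∫⁻ x in ball y r, (N.indicator 1 x +
        ENNReal.ofReal (C * Real.exp (-j)) * ENNReal.ofReal (psi v x ^ (1 : ℝ))) ≤
      volume N + ENNReal.ofReal (c / 2 * r ^ 7) := by
    rw [lintegral_add_left (measurable_one.indicator hNm),
      lintegral_const_mul' _ _ ENNReal.ofReal_ne_top]
    refine add_le_add ?_ ?_
    · exact (setLIntegral_le_lintegral _ _).trans (by rw [lintegral_indicator_one hNm])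
    · refine (mul_le_mul_right (hP y r hr1') _).trans ?_
      rw [← ENNReal.ofReal_mul (by positivity)]
      refine ENNReal.ofReal_le_ofReal ?_
      have : r ^ (7 : ℝ) = r ^ 7 := by exact_mod_cast Real.rpow_natCast r 7
      rw [this, ← mul_assoc]
      exact mul_le_mul_of_nonneg_right hj (by positivity)
  have h4 : ENNReal.ofReal (c / 2 * r ^ 7) ≤ volume N := by
    have h5 := h1.trans (h2.trans h3)
    have h6 : c * r ^ 7 = c / 2 * r ^ 7 + c / 2 * r ^ 7 := by ring
    rw [h6, ENNReal.ofReal_add (by positivity) (by positivity)] at h5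
    exact (ENNReal.add_le_add_iff_right ENNReal.ofReal_ne_top).1 h5
  -- `N` is controlled by the shallow set
  have h7 : w1 * volume N ≤ w2 * volume S := by
    rw [← int_FF S (j + 1), ← setLIntegral_const]
    refine (setLIntegral_mono' hNm fun x hx => ?_).trans (setLIntegral_le_lintegral _ _)
    obtain ⟨hx1, hx2⟩ := hx
    obtain ⟨z, hz0, hz⟩ := mem_iUnion₂.1 hx2
    have hzx : dist z x < j := mem_ball'.1 hz
    have hxy : dist x y < r := hx1
    refine le_FF (y := z) (subset_inter (ball_sub h hz0) (ball_subset_ball' ?_))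
      (ball_subset_ball' (by linarith))
    have := dist_triangle z x y
    linarith
  have h8 : w1 * ENNReal.ofReal (c / 2 * r ^ 7) ≤ w2 * volume S :=
    (mul_le_mul_right h4 _).trans h7
  have hSt : volume S ≠ ⊤ := ((measure_mono inter_subset_right).trans_lt measure_ball_lt_top).ne
  have h9 := ENNReal.toReal_mono (ENNReal.mul_ne_top hw2t hSt) h8
  rw [ENNReal.toReal_mul, ENNReal.toReal_mul, ENNReal.toReal_ofReal (by positivity)] at h9
  rw [← ENNReal.ofReal_toReal hSt]
  refine ENNReal.ofReal_le_ofReal ?_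
  have h10 : ρ ^ (7 : ℝ) = ρ ^ 7 := by exact_mod_cast Real.rpow_natCast ρ 7
  have h11 : (ρ / 2) ^ 7 ≤ r ^ 7 := pow_le_pow_left₀ (by linarith) hrρ 7
  rw [h10]
  have h12 : c / 2 / 2 ^ 7 * (w1.toReal / w2.toReal) * ρ ^ 7 =
      w1.toReal * (c / 2 * (ρ / 2) ^ 7) / w2.toReal := by field_simp
  rw [h12, div_le_iff₀ hr2]
  calc _ ≤ w1.toReal * (c / 2 * r ^ 7) := by gcongr
    _ ≤ _ := by linarith

end Crest.Agent.N067
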