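import Crest.Agent.N067.X7.Basic

/-! # Row 67, X7: Alt
alt: c0 = c/2^9.  If u has no sign on the (preconnected) ball y (s/2) there is z0 in it with u z0 = 0; mu(ball z0 (s/2)) >= c (s/2)^7,
 ball z0 (s/2) is inside ball y s; mass{t > eps} <= C s^6/eps <= c0 s^7 for s >= s1; so some p in ball y s has Par (eps/s) and t p <= eps.
 e = grad d p/|grad d p| (N^2 = 1 - t >= 1/2, 1 - N <= t), c = d p + <e, y - p>; error <= (eps/2s)(2s)^2 + eps 2s = 4 eps s; evaluate at z0 (d z0 = 0) for |c|.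
pick: the balls ball((2 j s) e8, s), j = 1..J, are disjoint (last coordinate) and inside the tube (|init x| <= |x - h e8|); sum of the masses
 <= mass of the tube part (integral_biUnion_finset), Finset.exists_le_of_sum_le; same downwards.  tube is inside ball 0 ((2J+2) s).
-/

set_option autoImplicit false

open MeasureTheory Laplacian InnerProductSpace Topology Filter Set Metric
open scoped RealInnerProductSpace ContDiff Gradient

namespace Crest.Agent.N067.X7

open Crest.Agent.R077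

namespace Alt'

theorem cont_tt (hB : Bas) {n : ℕ} {v : EE n → ℝ} (h : Sol v) : Continuous (tt v) := by
  have := hB.cont_grad h
  unfold tt; fun_prop

/-- a good point gives a unit-slope profile -/
theorem prof (hB : Bas) {u : EE 8 → ℝ} (h : Sol u) {y p : EE 8} {s ε : ℝ} (hs : 0 < s)
    (hε : 0 < ε) (hε' : ε ≤ 1 / 2) (hp : p ∈ ball y s) (hP : Par u p (ε / s)) (ht : tt u p ≤ ε) :
    ∃ (e : EE 8) (c : ℝ), ‖e‖ = 1 ∧ ∀ z ∈ ball y s, |dd u z - ⟪e, z - y⟫ - c| ≤ 4 * ε * s := by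
  have h1 := hB.norm_grad_le h p
  unfold tt at ht
  unfold Par at hP
  generalize ∇ (dd u) p = g at h1 ht hP
  have h0 : 0 < ‖g‖ := by
    by_contra hc
    have : ‖g‖ = 0 := le_antisymm (not_lt.1 hc) (norm_nonneg g)
    rw [this] at ht
    linarith
  have he : ‖(‖g‖⁻¹ • g : EE 8)‖ = 1 := by
    rw [norm_smul, norm_inv, norm_norm, inv_mul_cancel₀ h0.ne']
  have h2 : g - ‖g‖⁻¹ • g = (‖g‖ - 1) • (‖g‖⁻¹ • g) := by
    rw [sub_smul, one_smul, smul_smul, mul_inv_cancel₀ h0.ne', one_smul]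
  have h3 : ‖g - ‖g‖⁻¹ • g‖ ≤ ε := by
    rw [h2, norm_smul, he, mul_one, Real.norm_eq_abs, abs_of_nonpos (by linarith)]
    nlinarith
  refine ⟨‖g‖⁻¹ • g, dd u p + ⟪‖g‖⁻¹ • g, y - p⟫, he, fun z hz => ?_⟩
  generalize ‖g‖⁻¹ • g = e at h3
  have h4 : ‖z - p‖ ≤ 2 * s := by
    have := dist_triangle_right z p y
    rw [mem_ball] at hp hz
    rw [← dist_eq_norm]
    linarith
  have h5 : ε / s / 2 * ‖z - p‖ ^ 2 ≤ ε / s / 2 * (2 * s) ^ 2 := by gcongr
  have h6 : ε / s / 2 * (2 * s) ^ 2 = 2 * ε * s := by field_simp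
  have h7 : |⟪g - e, z - p⟫| ≤ ε * (2 * s) :=
    (abs_real_inner_le_norm _ _).trans (mul_le_mul h3 h4 (norm_nonneg _) hε.le)
  have h8 : dd u z - ⟪e, z - y⟫ - (dd u p + ⟪e, y - p⟫) =
      (dd u z - dd u p - ⟪g, z - p⟫) + ⟪g - e, z - p⟫ := by
    simp only [inner_sub_left, inner_sub_right]
    ring
  rw [h8]
  refine (abs_add_le _ _).trans ?_
  linarith [hP z]

theorem norm_e8 : ‖e8‖ = 1 := by simp [e8, ev]

theorem norm_sq_init (x : EE 8) : ‖x‖ ^ 2 = ‖init (n := 7) x‖ ^ 2 + x (Fin.last 7) ^ 2 := by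
  rw [EuclideanSpace.real_norm_sq_eq, EuclideanSpace.real_norm_sq_eq, Fin.sum_univ_castSucc]
  rfl

theorem init_sub (x : EE 8) (a : ℝ) : init (n := 7) (x - a • e8) = init (n := 7) x := by
  ext j
  have h : e8 j.castSucc = 0 := PiLp.single_apply 2 ℝ _ _ _ |>.trans
    (if_neg (Fin.castSucc_lt_last j).ne)
  change x j.castSucc - a * e8 j.castSucc = x j.castSucc
  rw [h, mul_zero, sub_zero]

theorem last_sub (x : EE 8) (a : ℝ) : (x - a • e8) (Fin.last 7) = x (Fin.last 7) - a := by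
  simp [e8, ev]

theorem ball_sub_tube {a s h : ℝ} (ha : |a| + s ≤ h) : ball (a • e8) s ⊆ tube s h := by
  intro x hx
  rw [mem_ball, dist_eq_norm] at hx
  have h1 := norm_sq_init (x - a • e8)
  rw [init_sub, last_sub] at h1
  have h2 : ‖init (n := 7) x‖ ≤ ‖x - a • e8‖ :=
    (abs_le_of_sq_le_sq' (by nlinarith [sq_nonneg (x (Fin.last 7) - a)]) (norm_nonneg _)).2
  have h3 : |x (Fin.last 7) - a| ≤ ‖x - a • e8‖ :=
    abs_le_of_sq_le_sq (by nlinarith [sq_nonneg ‖init (n := 7) x‖]) (norm_nonneg _)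
  have h4 : |x (Fin.last 7)| ≤ |x (Fin.last 7) - a| + |a| := by
    simpa using abs_add_le (x (Fin.last 7) - a) a
  exact ⟨h2.trans_lt hx, by linarith⟩

theorem tube_sub_ball (s h : ℝ) : tube s h ⊆ ball 0 (s + h) := by
  rintro x ⟨h1, h2⟩
  have h3 := norm_sq_init x
  have h4 : ‖x‖ ≤ ‖init (n := 7) x‖ + |x (Fin.last 7)| :=
    (abs_le_of_sq_le_sq' (by
      nlinarith [sq_abs (x (Fin.last 7)), mul_nonneg (norm_nonneg (init (n := 7) x))
        (abs_nonneg (x (Fin.last 7)))]) (by positivity)).2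
  rw [mem_ball_zero_iff]
  linarith

theorem pick1 (hB : Bas) {u : EE 8 → ℝ} {J : ℕ} {s φ M σ : ℝ} (h : Sol u) (hJ : 1 ≤ J)
    (hs : 0 < s) (hσ : |σ| = 1)
    (hM : mu u (tube s ((2 * J + 1) * s) ∩ bad u φ) (fun _ => 1) ≤ J * M) :
    ∃ a : ℝ, 0 ≤ a ∧ a ≤ 2 * J * s ∧ mu u (ball ((σ * a) • e8) s ∩ bad u φ) (fun _ => 1) ≤ M := by
  have hle : ∀ j ∈ Finset.range J, 2 * (j : ℝ) * s ≤ 2 * J * s := fun j hj => by
    have : (j : ℝ) ≤ J := by exact_mod_cast (Finset.mem_range.1 hj).le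
    gcongr
  have hsub : ∀ j ∈ Finset.range J, ball ((σ * (2 * (j : ℝ) * s)) • e8) s ∩ bad u φ ⊆
      tube s ((2 * J + 1) * s) ∩ bad u φ := fun j hj =>
    inter_subset_inter_left _ (ball_sub_tube (by
      rw [abs_mul, hσ, one_mul, abs_of_nonneg (by positivity)]
      linarith [hle j hj]))
  have hT : tube s ((2 * J + 1) * s) ∩ bad u φ ⊆ ball 0 (s + (2 * J + 1) * s) :=
    inter_subset_left.trans (tube_sub_ball _ _)
  have h1 : mu u (⋃ j ∈ Finset.range J, ball ((σ * (2 * (j : ℝ) * s)) • e8) s ∩ bad u φ)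
      (fun _ => 1) = ∑ j ∈ Finset.range J,
        mu u (ball ((σ * (2 * (j : ℝ) * s)) • e8) s ∩ bad u φ) (fun _ => 1) := by
    refine integral_biUnion_finset _ (fun j _ => measurableSet_ball.inter (hB.meas_bad h φ))
      (fun i _ j _ hij => ?_) fun j _ => intOn_mu h continuous_const inter_subset_left
    refine Disjoint.mono inter_subset_left inter_subset_left (ball_disjoint_ball ?_)
    have h2 : (1 : ℝ) ≤ |(i : ℝ) - j| := by
      have : (1 : ℤ) ≤ |(i : ℤ) - j| := Int.one_le_abs (sub_ne_zero.2 (by exact_mod_cast hij))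
      exact_mod_cast this
    have h3 : σ * (2 * (i : ℝ) * s) - σ * (2 * (j : ℝ) * s) = σ * (((i : ℝ) - j) * (2 * s)) := by
      ring
    rw [dist_eq_norm, ← sub_smul, norm_smul, norm_e8, mul_one, Real.norm_eq_abs, h3, abs_mul, hσ,
      one_mul, abs_mul, abs_of_pos (by positivity : 0 < 2 * s)]
    nlinarith
  have h2 := mu_mono_set h (continuous_const (y := (1 : ℝ))) (fun _ => zero_le_one)
    (iUnion₂_subset hsub) hT
  obtain ⟨j, hj, h3⟩ := Finset.exists_le_of_sum_le (s := Finset.range J) (g := fun _ => M)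
    (f := fun j : ℕ => mu u (ball ((σ * (2 * (j : ℝ) * s)) • e8) s ∩ bad u φ) (fun _ => 1))
    (Finset.nonempty_range_iff.2 (by omega)) (by
      rw [← h1, Finset.sum_const, Finset.card_range, nsmul_eq_mul]
      exact h2.trans hM)
  exact ⟨2 * j * s, by positivity, hle j hj, h3⟩

end Alt'

open Alt'

theorem alt (hB : Bas) (hD : DensStmt) (hT : TailStmt) : AltStmt := by
  intro u Θ hM
  obtain ⟨c, hc, hD⟩ := hD
  obtain ⟨C, hC, hT⟩ := hT u Θ hM
  have h := hM.sol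
  refine ⟨c / 2 ^ 9, by positivity, fun ε hε hε' => ⟨max 2 (C / (ε * (c / 2 ^ 9))), ?_⟩⟩
  intro s hs y hm
  have hs2 : 2 ≤ s := (le_max_left _ _).trans hs
  have hs0 : 0 < s := by linarith
  have hsC : C ≤ s * (ε * (c / 2 ^ 9)) :=
    (div_le_iff₀ (by positivity)).1 ((le_max_right _ _).trans hs)
  by_cases h1 : ∀ z ∈ ball y (s / 2), 0 < u z
  · exact .inl h1
  by_cases h2 : ∀ z ∈ ball y (s / 2), u z < 0
  · exact .inr (.inl h2)
  simp only [not_forall, not_lt] at h1 h2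
  obtain ⟨z1, hz1, h1⟩ := h1
  obtain ⟨z2, hz2, h2⟩ := h2
  obtain ⟨z0, hz0, h0⟩ := (convex_ball y (s / 2)).isPreconnected.intermediate_value hz1 hz2
    h.sm.continuous.continuousOn ⟨h1, h2⟩
  have h3 : c * (s / 2) ^ 7 ≤ mu u (ball y s) (fun _ => 1) :=
    (hD u z0 h h0 (s / 2) (by linarith)).trans (mu_mono_set h continuous_const
      (fun _ => zero_le_one) (ball_subset_ball' (by rw [mem_ball] at hz0; linarith)) Subset.rfl)
  have hme : MeasurableSet (ball y s ∩ {x | ε < tt u x}) :=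
    measurableSet_ball.inter (isOpen_lt continuous_const (cont_tt hB h)).measurableSet
  have h4 : ε * mu u (ball y s ∩ {x | ε < tt u x}) (fun _ => 1) ≤ C * s ^ 6 := by
    rw [← mu_const]
    exact ((mu_mono_fun h continuous_const (cont_tt hB h) hme inter_subset_left
      fun x hx => le_of_lt hx.2).trans (mu_mono_set h (cont_tt hB h) (hB.tt_nonneg h)
        inter_subset_left Subset.rfl)).trans (hT y s (by linarith)).2.2
  have h5 : mu u (ball y s ∩ {x | ε < tt u x}) (fun _ => 1) ≤ c / 2 ^ 9 * s ^ 7 := by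
    refine le_of_mul_le_mul_left (h4.trans ?_) hε
    calc C * s ^ 6 ≤ s * (ε * (c / 2 ^ 9)) * s ^ 6 := by gcongr
      _ = ε * (c / 2 ^ 9 * s ^ 7) := by ring
  have h6 : ∃ p ∈ ball y s, Par u p (ε / s) ∧ tt u p ≤ ε := by
    by_contra hn
    have h7 := mu_le_add h (continuous_const (y := (1 : ℝ))) (fun _ => zero_le_one)
      (A := ball y s) (B := ball y s ∩ bad u (ε / s)) hme (fun p hp => by
        by_cases hP : Par u p (ε / s)
        · exact .inr ⟨hp, not_le.1 fun ht => hn ⟨p, hp, hP, ht⟩⟩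
        · exact .inl ⟨hp, hP⟩) inter_subset_left inter_subset_left
    have h8 : 0 < c * s ^ 7 := by positivity
    have h9 : c * (s / 2) ^ 7 = c * s ^ 7 / 128 := by ring
    have h10 : c / 2 ^ 9 * s ^ 7 = c * s ^ 7 / 512 := by ring
    linarith
  obtain ⟨p, hp, hP, ht⟩ := h6
  obtain ⟨e, k, he, hk⟩ := prof hB h hs0 hε hε' hp hP ht
  refine .inr (.inr ⟨e, k, he, ?_, hk⟩)
  have h7 := hk z0 (ball_subset_ball (by linarith) hz0)
  have h8 : dd u z0 = 0 := by simp [dd, h0]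
  have h9 : |⟪e, z0 - y⟫| ≤ s / 2 := by
    refine (abs_real_inner_le_norm _ _).trans ?_
    rw [he, one_mul, ← dist_eq_norm]
    exact le_of_lt hz0
  rw [h8] at h7
  rw [abs_le] at h7 h9 ⊢
  constructor <;> linarith [h7.1, h7.2, h9.1, h9.2]

theorem pick (hB : Bas) : PickStmt := by
  intro u J s φ M h hJ hs hM
  obtain ⟨a, a0, a1, a2⟩ := pick1 hB h hJ hs abs_one hM
  obtain ⟨b, b0, b1, b2⟩ := pick1 hB (σ := -1) h hJ hs (by simp) hM
  rw [one_mul] at a2
  rw [neg_one_mul, neg_smul] at b2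
  exact ⟨a, b, a0, a1, b0, b1, a2, b2⟩

end Crest.Agent.N067.X7
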