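import Crest.Agent.N067.X7.Defs

/-! # Row 67, X7: basic API (helper1) -/

set_option autoImplicit false

open MeasureTheory Laplacian InnerProductSpace Topology Filter Set Metric
open scoped RealInnerProductSpace ContDiff Gradient

namespace Crest.Agent.N067.X7

open Crest.Agent.R077

variable {n : ℕ}

theorem Bas.dd_smooth (hB : Bas) {v : EE n → ℝ} (h : Sol v) : ContDiff ℝ ∞ (dd v) :=
  (hB.deq n v h).1

theorem Bas.cont_grad (hB : Bas) {v : EE n → ℝ} (h : Sol v) : Continuous (∇ (dd v)) :=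
  St.continuous_grad (contDiff_infty.1 (hB.dd_smooth h) 1)

theorem Bas.tt_nonneg (hB : Bas) {v : EE n → ℝ} (h : Sol v) (x : EE n) : 0 ≤ tt v x :=
  hB.modica n v h x

theorem tt_le_one (v : EE n → ℝ) (x : EE n) : tt v x ≤ 1 := by
  unfold tt; nlinarith [sq_nonneg ‖∇ (dd v) x‖]

theorem Bas.norm_grad_le (hB : Bas) {v : EE n → ℝ} (h : Sol v) (x : EE n) : ‖∇ (dd v) x‖ ≤ 1 := by
  have := hB.tt_nonneg h x
  unfold tt at this
  nlinarith [norm_nonneg (∇ (dd v) x)]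

theorem psi_le_one (v : EE n → ℝ) (x : EE n) : psi v x ≤ 1 := by
  unfold psi; nlinarith [sq_nonneg (v x)]

theorem cont_psi {v : EE n → ℝ} (h : Sol v) : Continuous (psi v) := h.contDiff_psi.continuous

theorem Bas.qq_nonneg (hB : Bas) {v : EE n → ℝ} (h : Sol v) (x : EE n) : 0 ≤ qq v x :=
  mul_nonneg (h.psi_pos x).le (hB.tt_nonneg h x)

theorem Bas.PP_nonneg (hB : Bas) {v : EE n → ℝ} (h : Sol v) (x : EE n) : 0 ≤ PP v x := by
  have := hB.tt_nonneg h x
  unfold PP; positivity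

theorem en_eq {v : EE n → ℝ} (h : Sol v) (x : EE n) :
    en v x = psi v x ^ 2 / 2 * (1 - tt v x / 2) := by
  have := h.grad_sq x
  unfold en
  have h2 : (1 - v x ^ 2) = psi v x := rfl
  rw [h2]; linarith

theorem en_sub {v : EE n → ℝ} (h : Sol v) (x : EE n) : en v x - ‖∇ v x‖ ^ 2 = PP v x := by
  have := h.grad_sq x
  rw [en_eq h]; unfold PP; linarith

theorem en_nonneg (v : EE n → ℝ) (x : EE n) : 0 ≤ en v x := by unfold en; positivity

theorem psi_sq_le (v : EE n → ℝ) (x : EE n) : psi v x ^ 2 ≤ 4 * en v x := by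
  unfold en psi; nlinarith [sq_nonneg ‖∇ v x‖]

theorem Bas.en_le (hB : Bas) {v : EE n → ℝ} (h : Sol v) (x : EE n) : en v x ≤ psi v x ^ 2 / 2 := by
  have := hB.tt_nonneg h x
  rw [en_eq h]; nlinarith [sq_nonneg (psi v x)]

theorem cont_en {v : EE n → ℝ} (h : Sol v) : Continuous (en v) := by
  have h1 := St.continuous_grad (contDiff_infty.1 h.sm 1)
  have h2 := h.sm.continuous
  unfold en; fun_prop

theorem cont_gsq {f : EE n → ℝ} (hf : ContDiff ℝ 1 f) : Continuous (gsq f) := by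
  have := fun i => St.continuous_pdv hf i
  unfold gsq; fun_prop

theorem cont_gin {f g : EE n → ℝ} (hf : ContDiff ℝ 1 f) (hg : ContDiff ℝ 1 g) :
    Continuous (gin f g) := by
  have h1 := fun i => St.continuous_pdv hf i
  have h2 := fun i => St.continuous_pdv hg i
  unfold gin; fun_prop

theorem cont_hsq {f : EE n → ℝ} (hf : ContDiff ℝ ∞ f) : Continuous (hsq f) := by
  have := fun i j => (St.contDiff_pdv_top (St.contDiff_pdv_top hf j) i).continuous
  unfold hsq hs; fun_prop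

/-- the sign of `d` is the sign of `v` -/
theorem dd_pos_iff {v : EE n → ℝ} (h : Sol v) (x : EE n) : 0 < dd v x ↔ 0 < v x := by
  have hx := abs_lt.1 (h.lt x)
  have hs : (0 : ℝ) < Real.sqrt 2 := by positivity
  unfold dd
  rw [mul_pos_iff_of_pos_left hs]
  constructor
  · intro h1
    by_contra h2
    have := Real.artanh_nonpos (x := v x) (not_lt.1 h2)
    linarith
  · intro h1; exact Real.artanh_pos ⟨h1, hx.2⟩

theorem tanh_dd {v : EE n → ℝ} (h : Sol v) (x : EE n) :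
    Real.tanh (dd v x / Real.sqrt 2) = v x := by
  have hs : (Real.sqrt 2) ≠ 0 := by positivity
  unfold dd
  rw [mul_div_cancel_left₀ _ hs]
  exact Real.tanh_artanh (abs_lt.1 (h.lt x))

theorem Bas.isOpen_bad (hB : Bas) {v : EE n → ℝ} (h : Sol v) (φ : ℝ) : IsOpen (bad v φ) := by
  have h1 := (hB.dd_smooth h).continuous
  have h2 := hB.cont_grad h
  have : bad v φ = ⋃ z, {x | φ / 2 * ‖z - x‖ ^ 2 < |dd v z - dd v x - ⟪∇ (dd v) x, z - x⟫|} := by
    ext x; simp [bad, Par]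
  rw [this]
  exact isOpen_iUnion fun z => isOpen_lt (by fun_prop) (by fun_prop)

theorem Bas.meas_bad (hB : Bas) {v : EE n → ℝ} (h : Sol v) (φ : ℝ) : MeasurableSet (bad v φ) :=
  (hB.isOpen_bad h φ).measurableSet

theorem Par.mono {v : EE n → ℝ} {x : EE n} {φ φ' : ℝ} (h : Par v x φ) (hφ : φ ≤ φ') :
    Par v x φ' := fun z => (h z).trans (by gcongr)

theorem bad_anti (v : EE n → ℝ) {φ φ' : ℝ} (hφ : φ ≤ φ') : bad v φ' ⊆ bad v φ :=
  fun _ hx hp => hx (hp.mono hφ)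

theorem Flat.mono {v : EE n → ℝ} {r β β' : ℝ} (h : Flat v r β) (hr : 0 ≤ r) (hβ : β ≤ β') :
    Flat v r β' := by
  obtain ⟨e, c, h⟩ := h
  exact ⟨e, c, fun z hz => (h z hz).trans (by gcongr)⟩

theorem Flat.sub {v : EE n → ℝ} {r r' β β' : ℝ} (h : Flat v r β) (hr : r' ≤ r)
    (hβ : β * r ≤ β' * r') : Flat v r' β' := by
  obtain ⟨e, c, h⟩ := h
  exact ⟨e, c, fun z hz => (h z (ball_subset_ball hr hz)).trans hβ⟩

/-- one good point makes the ball flat -/
theorem Par.flat {v : EE n → ℝ} {x : EE n} {r lam : ℝ} (hr : 0 < r) (hl : 0 ≤ lam)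
    (hx : x ∈ ball (0 : EE n) r) (h : Par v x (lam / r)) : Flat v r (2 * lam) := by
  refine ⟨∇ (dd v) x, dd v x - ⟪∇ (dd v) x, x⟫, fun z hz => ?_⟩
  have h1 := h z
  rw [inner_sub_right] at h1
  have h2 : ‖z - x‖ ≤ 2 * r := by
    have := norm_sub_le z x
    rw [mem_ball_zero_iff] at hx hz
    linarith
  have h3 : lam / r / 2 * ‖z - x‖ ^ 2 ≤ lam / r / 2 * (2 * r) ^ 2 := by gcongr
  have h4 : lam / r / 2 * (2 * r) ^ 2 = 2 * lam * r := by field_simp
  have h5 : dd v z - ⟪∇ (dd v) x, z⟫ - (dd v x - ⟪∇ (dd v) x, x⟫) =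
      dd v z - dd v x - (⟪∇ (dd v) x, z⟫ - ⟪∇ (dd v) x, x⟫) := by ring
  rw [h5]; linarith

theorem intOn {f : EE n → ℝ} (hf : Continuous f) {A : Set (EE n)} {y : EE n} {r : ℝ}
    (hA : A ⊆ ball y r) : IntegrableOn f A :=
  (hf.continuousOn.integrableOn_compact (isCompact_closedBall y r)).mono_set
    (hA.trans ball_subset_closedBall)

theorem intOn_mu {v f : EE n → ℝ} (h : Sol v) (hf : Continuous f) {A : Set (EE n)} {y : EE n}
    {r : ℝ} (hA : A ⊆ ball y r) : IntegrableOn (fun x => f x * psi v x ^ 2) A :=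
  intOn (hf.mul ((cont_psi h).pow 2)) hA

theorem mu_nonneg {v f : EE n → ℝ} (A : Set (EE n)) (hf : ∀ x, 0 ≤ f x) : 0 ≤ mu v A f :=
  integral_nonneg fun x => mul_nonneg (hf x) (sq_nonneg _)

theorem mu_mono_set {v f : EE n → ℝ} (h : Sol v) (hf : Continuous f) (h0 : ∀ x, 0 ≤ f x)
    {A B : Set (EE n)} {y : EE n} {r : ℝ} (hAB : A ⊆ B) (hB : B ⊆ ball y r) :
    mu v A f ≤ mu v B f :=
  setIntegral_mono_set (intOn_mu h hf hB)
    (Eventually.of_forall fun x => mul_nonneg (h0 x) (sq_nonneg _)) hAB.eventuallyLE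

theorem mu_mono_fun {v f g : EE n → ℝ} (h : Sol v) (hf : Continuous f) (hg : Continuous g)
    {A : Set (EE n)} (hA : MeasurableSet A) {y : EE n} {r : ℝ} (hB : A ⊆ ball y r)
    (hfg : ∀ x ∈ A, f x ≤ g x) : mu v A f ≤ mu v A g :=
  setIntegral_mono_on (intOn_mu h hf hB) (intOn_mu h hg hB) hA
    fun x hx => mul_le_mul_of_nonneg_right (hfg x hx) (sq_nonneg _)

theorem mu_const (v : EE n → ℝ) (A : Set (EE n)) (c : ℝ) :
    mu v A (fun _ => c) = c * mu v A (fun _ => 1) := by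
  unfold mu
  rw [← integral_const_mul]; simp

/-- subadditivity: `A ⊆ B ∪ C` -/
theorem mu_le_add {v f : EE n → ℝ} (h : Sol v) (hf : Continuous f) (h0 : ∀ x, 0 ≤ f x)
    {A B C : Set (EE n)} (hC : MeasurableSet C) {y : EE n} {r : ℝ} (hA : A ⊆ B ∪ C)
    (hB : B ⊆ ball y r) (hC' : C ⊆ ball y r) : mu v A f ≤ mu v B f + mu v C f := by
  have h1 : mu v A f ≤ mu v (B \ C ∪ C) f :=
    mu_mono_set h hf h0 (by rw [sdiff_union_self]; exact hA)
      (union_subset (sdiff_subset.trans hB) hC')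
  have h2 : mu v (B \ C ∪ C) f = mu v (B \ C) f + mu v C f :=
    setIntegral_union disjoint_sdiff_left hC (intOn_mu h hf (sdiff_subset.trans hB))
      (intOn_mu h hf hC')
  have h3 : mu v (B \ C) f ≤ mu v B f := mu_mono_set h hf h0 sdiff_subset hB
  linarith

theorem mu_one_le {v : EE 8 → ℝ} {Θ : ℝ} (h : Sol v) (hE : EnB v Θ) (y : EE 8) {r : ℝ}
    (hr : 1 ≤ r) : mu v (ball y r) (fun _ => 1) ≤ 4 * Θ * r ^ 7 := by
  have h1 := hE y r hr
  have h2 : mu v (ball y r) (fun _ => 1) ≤ ∫ z in ball y r, 4 * en v z :=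
    setIntegral_mono_on (intOn_mu h continuous_const Subset.rfl)
      (intOn (continuous_const.mul (cont_en h)) Subset.rfl) measurableSet_ball
      fun x _ => by simpa using psi_sq_le v x
  rw [integral_const_mul] at h2
  linarith

theorem EnB.nonneg {v : EE 8 → ℝ} {Θ : ℝ} (hE : EnB v Θ) : 0 ≤ Θ := by
  have h1 := hE 0 1 le_rfl
  have h2 : 0 ≤ ∫ z in ball (0 : EE 8) 1, en v z := integral_nonneg fun x => en_nonneg v x
  linarith

/-! ### cut-off and bracket -/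

theorem contDiff_cut' (R : ℝ) : ContDiff ℝ ∞ (cut R : EE n → ℝ) :=
  contDiff_const.sub (contDiff_chi (m := ⊤) R)

theorem cut_nonneg (R : ℝ) (x : EE n) : 0 ≤ cut R x := by
  have := chi_le_one R x; unfold cut; linarith

theorem cut_le_one (R : ℝ) (x : EE n) : cut R x ≤ 1 := by
  have := chi_nonneg R x; unfold cut; linarith

theorem cut_one {R : ℝ} (hR : 0 < R) {x : EE n} (h : ‖x‖ ≤ R) : cut R x = 1 := by
  unfold cut; rw [chi_zero hR h]; ring

/-- the cut-off vanishes already for `‖x‖ ≥ 3R/2` -/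
theorem cut_zero' {R : ℝ} (hR : 0 < R) {x : EE n} (h : 3 / 2 * R ≤ ‖x‖) : cut R x = 0 := by
  unfold cut chi chi1
  rw [Real.smoothTransition.one_of_one_le]; · ring
  rw [norm_smul, Real.norm_eq_abs, abs_of_pos (inv_pos.2 hR)]
  have : 3 / 2 ≤ R⁻¹ * ‖x‖ := by rw [le_inv_mul_iff₀ hR]; linarith
  nlinarith

theorem cut_zero {R : ℝ} (hR : 0 < R) {x : EE n} (h : 2 * R ≤ ‖x‖) : cut R x = 0 :=
  cut_zero' hR (by linarith)

theorem cs_cut {R : ℝ} (hR : 0 < R) : HasCompactSupport (cut R : EE n → ℝ) :=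
  HasCompactSupport.intro (isCompact_closedBall (0 : EE n) (2 * R)) fun x hx =>
    cut_zero hR (by simpa using (not_le.1 (by simpa using hx)).le)

theorem pdv_cut_far {R : ℝ} (hR : 0 < R) {x : EE n} (h : 2 * R ≤ ‖x‖) (i : Fin n) :
    pdv i (cut R) =ᶠ[𝓝 x] fun _ => 0 := by
  have h1 : {y : EE n | 3 / 2 * R < ‖y‖} ∈ 𝓝 x :=
    (isOpen_lt continuous_const continuous_norm).mem_nhds (by show 3 / 2 * R < ‖x‖; linarith)
  filter_upwards [eventually_eventually_nhds.2 h1] with y hy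
  have : (cut R : EE n → ℝ) =ᶠ[𝓝 y] fun _ => 0 := by
    filter_upwards [hy] with z hz using cut_zero' hR (le_of_lt hz)
  rw [pdv_congr this, pdv_const]

theorem pdv_cut_near {R : ℝ} (hR : 0 < R) {x : EE n} (h : ‖x‖ < R) (i : Fin n) :
    pdv i (cut R) =ᶠ[𝓝 x] fun _ => 0 := by
  have h1 : {y : EE n | ‖y‖ < R} ∈ 𝓝 x :=
    (isOpen_lt continuous_norm continuous_const).mem_nhds h
  filter_upwards [eventually_eventually_nhds.2 h1] with y hy
  have : (cut R : EE n → ℝ) =ᶠ[𝓝 y] fun _ => 1 := by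
    filter_upwards [hy] with z hz using cut_one hR (le_of_lt hz)
  rw [pdv_congr this, pdv_const]

/-- first and second derivatives of the cut-off -/
theorem exists_cut_bound (n : ℕ) : ∃ C : ℝ, 0 ≤ C ∧ ∀ R : ℝ, 0 < R → ∀ (i : Fin n) (x : EE n),
    |pdv i (cut R) x| ≤ C / R ∧ |pdv i (pdv i (cut R)) x| ≤ C / R ^ 2 := by
  obtain ⟨C, hC, h⟩ := exists_chi1_bound (n := n)
  refine ⟨C, hC, fun R hR i x => ?_⟩
  have h1 : pdv i (cut R : EE n → ℝ) = fun y => -pdv i (chi R) y := by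
    funext y; exact pdv_const_sub 1 (chi R) i y
  constructor
  · rw [h1]; simp only [abs_neg]
    rw [pdv_chi, abs_mul, abs_of_pos (inv_pos.2 hR), div_eq_inv_mul]
    exact mul_le_mul_of_nonneg_left (h i _).1 (inv_pos.2 hR).le
  · rw [h1, pdv_neg, abs_neg, pdv2_chi, abs_mul, abs_mul, abs_of_pos (inv_pos.2 hR)]
    have := (h i (R⁻¹ • x)).2
    have h2 : C / R ^ 2 = R⁻¹ * (R⁻¹ * C) := by field_simp
    rw [h2]; gcongr

theorem exists_gsq_cut (n : ℕ) : ∃ C : ℝ, 0 ≤ C ∧ ∀ R : ℝ, 0 < R → ∀ x : EE n,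
    gsq (cut R) x ≤ C / R ^ 2 ∧ (2 * R ≤ ‖x‖ → gsq (cut R) x = 0) ∧
      (‖x‖ < R → gsq (cut R) x = 0) := by
  obtain ⟨C, hC, h⟩ := exists_cut_bound n
  refine ⟨n * C ^ 2, by positivity, fun R hR x => ⟨?_, fun hx => ?_, fun hx => ?_⟩⟩
  · have : ∀ i, pdv i (cut R) x ^ 2 ≤ (C / R) ^ 2 := fun i => by
      rw [← sq_abs]; exact pow_le_pow_left₀ (abs_nonneg _) (h R hR i x).1 2
    calc gsq (cut R) x ≤ ∑ _i : Fin n, (C / R) ^ 2 := Finset.sum_le_sum fun i _ => this i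
      _ = n * C ^ 2 / R ^ 2 := by simp [div_pow, mul_div_assoc]
  · exact Finset.sum_eq_zero fun i _ => by rw [(pdv_cut_far hR hx i).eq_of_nhds]; simp
  · exact Finset.sum_eq_zero fun i _ => by rw [(pdv_cut_near hR hx i).eq_of_nhds]; simp

theorem one_le_br (x : EE n) : 1 ≤ br x := by
  unfold br; rw [Real.one_le_sqrt]; nlinarith [sq_nonneg ‖x‖]

theorem br_pos (x : EE n) : 0 < br x := lt_of_lt_of_le one_pos (one_le_br x)

theorem br_sq (x : EE n) : br x ^ 2 = 1 + ‖x‖ ^ 2 := Real.sq_sqrt (by positivity)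

theorem norm_le_br (x : EE n) : ‖x‖ ≤ br x := by
  have := br_sq x; have := br_pos x
  nlinarith [norm_nonneg x]

theorem br_le (x : EE n) : br x ≤ 1 + ‖x‖ := by
  have := br_sq x; have := br_pos x
  nlinarith [norm_nonneg x]

theorem contDiff_br : ContDiff ℝ ∞ (br : EE n → ℝ) :=
  (contDiff_const.add (contDiff_norm_sq ℝ)).sqrt fun x => by positivity

theorem pdv_br (i : Fin n) (x : EE n) : pdv i br x = x i / br x := by
  have h1 : HasDerivAt (fun s : ℝ => Real.sqrt (1 + s)) (1 / (2 * br x)) (‖x - 0‖ ^ 2) := by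
    have := ((hasDerivAt_id (‖x - 0‖ ^ 2)).const_add 1).sqrt (by simp only [id]; positivity)
    simpa [br] using this
  have h2 : DifferentiableAt ℝ (fun y : EE n => ‖y - 0‖ ^ 2) x :=
    (((contDiff_norm_sq ℝ (n := 1)).comp (contDiff_id.sub contDiff_const)).differentiable
      (by norm_num)) x
  have h3 := pdv_comp (f := fun y : EE n => ‖y - 0‖ ^ 2) h1 h2 i
  rw [pdv_normSq] at h3
  have h4 : (br : EE n → ℝ) = fun y => Real.sqrt (1 + ‖y - 0‖ ^ 2) := by funext y; simp [br]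
  have h5 := br_pos x
  rw [h4, h3]
  simp only [sub_zero, PiLp.zero_apply]
  have h6 : Real.sqrt (1 + ‖x‖ ^ 2) = br x := rfl
  rw [h6]; field_simp

theorem contDiff_zeta (R : ℝ) : ContDiff ℝ ∞ (zeta R : EE n → ℝ) :=
  ((contDiff_cut' R).pow 2).div (contDiff_br.pow 5) fun x => (pow_pos (br_pos x) 5).ne'

theorem zeta_nonneg (R : ℝ) (x : EE n) : 0 ≤ zeta R x := by
  have := br_pos x; unfold zeta; positivity

theorem cs_zeta {R : ℝ} (hR : 0 < R) : HasCompactSupport (zeta R : EE n → ℝ) :=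
  HasCompactSupport.intro (isCompact_closedBall (0 : EE n) (2 * R)) fun x hx => by
    unfold zeta
    rw [cut_zero hR (by simpa using (not_le.1 (by simpa using hx)).le)]; simp

end Crest.Agent.N067.X7
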