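import Crest.Agent.N067.A.Calc
import Crest.Agent.N067.A.Stab

/-!
# Row 67, block X7 (S0089 from S0090): frozen definitions and statements (helper1, note h1-X7)

`u : ℝ⁸ → (-1,1)` monotone in `x₈`, `u 0 = 0`, energy `≤ Θ R⁷` in every ball.
`d = dd u`, `σ = ∂₈ d`, `μ = ψ² dx`, `P = ψ² t / 4`, `en = (ψ²/2)(1 - t/2)`.
Three PROVIDER statements (`AreaStmt`, `TubeStmt`, `SMStmt`) come from the S0090 machine
(X1 weak form, master inequality); everything else is elementary.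
-/

set_option autoImplicit false

open MeasureTheory Laplacian InnerProductSpace Topology Filter Set Metric
open scoped RealInnerProductSpace ContDiff Gradient

namespace Crest.Agent.N067.X7

open Crest.Agent.R077

noncomputable section

/-- the basics used by the leaves (proved in `N067/A`). -/
structure Bas : Prop where
  reg : RegStmt
  deq : DEqStmt
  modica : ModicaStmt
  ball : BallStmt

section generic
variable {n : ℕ}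

/-- two-sided paraboloid bound for `d` at `x` with opening `φ` -/
def Par (v : EE n → ℝ) (x : EE n) (φ : ℝ) : Prop :=
  ∀ z, |dd v z - dd v x - ⟪∇ (dd v) x, z - x⟫| ≤ φ / 2 * ‖z - x‖ ^ 2

/-- the (open) set of points without the paraboloid bound -/
def bad (v : EE n → ℝ) (φ : ℝ) : Set (EE n) := {x | ¬ Par v x φ}

/-- `d` is within `β r` of an affine function on the ball of radius `r` at the origin -/
def Flat (v : EE n → ℝ) (r β : ℝ) : Prop :=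
  ∃ (e : EE n) (c : ℝ), ∀ z ∈ ball (0 : EE n) r, |dd v z - ⟪e, z⟫ - c| ≤ β * r

/-- `∫_A f dμ`, `μ = ψ² dx` -/
def mu (v : EE n → ℝ) (A : Set (EE n)) (f : EE n → ℝ) : ℝ := ∫ x in A, f x * psi v x ^ 2

/-- cut-off: `1` on `‖x‖ ≤ R`, `0` on `‖x‖ ≥ 2R` -/
def cut (R : ℝ) (x : EE n) : ℝ := 1 - chi R x

/-- Japanese bracket -/
def br (x : EE n) : ℝ := Real.sqrt (1 + ‖x‖ ^ 2)

/-- the weight `cut² ⟨x⟩⁻⁵` -/
def zeta (R : ℝ) (x : EE n) : ℝ := cut R x ^ 2 / br x ^ 5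

/-- discrepancy `P = W(v) - |∇v|²/2 = ψ² t / 4` -/
def PP (v : EE n → ℝ) (x : EE n) : ℝ := psi v x ^ 2 * tt v x / 4

end generic

/-- primitive of `1 - τ²` -/
def Phi (τ : ℝ) : ℝ := τ - τ ^ 3 / 3

/-- the last unit vector of `ℝ⁸` -/
def e8 : EE 8 := ev (Fin.last 7)

/-- `σ = ∂₈ d` -/
def sig (u : EE 8 → ℝ) : EE 8 → ℝ := pdv (Fin.last 7) (dd u)

/-- energy bound at all centres -/
def EnB (v : EE 8 → ℝ) (Θ : ℝ) : Prop :=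
  ∀ (x : EE 8) (R : ℝ), 1 ≤ R → ∫ z in ball x R, en v z ≤ Θ * R ^ 7

/-- the standing hypotheses of X7 -/
structure Mo (u : EE 8 → ℝ) (Θ : ℝ) : Prop where
  sol : Sol u
  mono : MonoLast (n := 7) u
  stab : Stable u
  enb : EnB u Θ
  zero : u 0 = 0

/-- vertical tube of radius `s` and half height `h` -/
def tube (s h : ℝ) : Set (EE 8) := {x | ‖init (n := 7) x‖ < s ∧ |x (Fin.last 7)| < h}

/-- the size of the curvature terms seen by the weight `g` -/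
def curv (u g : EE 8 → ℝ) (x : EE 8) : ℝ := (hsq (dd u) x + qq u x) * g x ^ 2 + gsq g x

/-- alternative on the ball `B(y,s)`: one sign on the half ball, or a unit-slope affine profile -/
def Alt (u : EE 8 → ℝ) (y : EE 8) (s ε : ℝ) : Prop :=
  (∀ z ∈ ball y (s / 2), 0 < u z) ∨ (∀ z ∈ ball y (s / 2), u z < 0) ∨
    ∃ (e : EE 8) (c : ℝ), ‖e‖ = 1 ∧ |c| ≤ s / 2 + 4 * ε * s ∧
      ∀ z ∈ ball y s, |dd u z - ⟪e, z - y⟫ - c| ≤ 4 * ε * s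

/-! ### properties delivered by the S0090 machine -/

/-- few points have a small regularity scale -/
def Area (u : EE 8 → ℝ) : Prop :=
  ∃ (p : ℕ) (C : ℝ), 1 ≤ p ∧ ∀ r f : ℝ, 1 ≤ f → f ≤ r →
    (mu u (ball 0 r ∩ bad u (1 / f)) (fun _ => 1) / r ^ 7) ^ p ≤ C * (f / r)

/-- in long thin vertical tubes most of the mass is flat at the scale of the radius -/
def Tube (u : EE 8 → ℝ) : Prop :=
  ∀ ε : ℝ, 0 < ε → ∃ (J : ℕ) (s0 : ℝ), 1 ≤ J ∧ ∀ s : ℝ, s0 ≤ s →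
    mu u (tube s ((2 * J + 1) * s) ∩ bad u (ε / s)) (fun _ => 1) ≤ ε * J * s ^ 7

/-- sub-mean inequality for `U^{1/m}` against a `μ`-superharmonic weight `g` -/
def SM (u : EE 8 → ℝ) : Prop :=
  ∃ m0 : ℕ, ∀ m : ℕ, m0 ≤ m → ∀ T : ℝ, ∃ C r1 : ℝ, ∀ g : EE 8 → ℝ, ContDiff ℝ ∞ g →
    (∀ x, 0 ≤ g x ∧ g x ≤ 1) → (∀ x, Lm u g x ≤ 0) → ∀ r0 ε lam : ℝ, r1 ≤ r0 → 0 ≤ ε →
    0 < lam → lam ≤ 1 → (∀ r, r0 ≤ r → mu u (ball 0 r) (curv u g) ≤ ε ^ 2 * r ^ 5) →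
    lam * (mu u (ball 0 r0 ∩ {x | |dd u x| ≤ T} ∩ bad u (lam / r0)) g / r0 ^ 7) ^ m ≤
      C * (ε ^ m + 1 / r0 ^ 2)

def AreaStmt : Prop := ∀ u Θ, Mo u Θ → Area u
def TubeStmt : Prop := ∀ u Θ, Mo u Θ → Tube u
def SMStmt : Prop := ∀ u Θ, Mo u Θ → SM u

/-! ### elementary statements -/

/-- weak form of `Δ_μ` -/
def WeakStmt : Prop := ∀ (n : ℕ) (v f ζ : EE n → ℝ), Sol v → ContDiff ℝ 2 f → ContDiff ℝ 1 ζ →
  HasCompactSupport ζ →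
  ∫ x, Lm v f x * ζ x * psi v x ^ 2 = -∫ x, gin f ζ x * psi v x ^ 2

/-- the stress-energy tensor `en · I - ∇v ⊗ ∇v` is divergence free -/
def StressStmt : Prop := ∀ (n : ℕ) (v : EE n → ℝ) (X : Fin n → EE n → ℝ), Sol v →
  (∀ i, ContDiff ℝ 1 (X i)) → (∀ i, HasCompactSupport (X i)) →
  ∫ x, (en v x * ∑ i, pdv i (X i) x - ∑ i, ∑ j, pdv i v x * pdv j v x * pdv i (X j) x) = 0

/-- lower density bound at the points of the zero set -/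
def DensStmt : Prop := ∃ c : ℝ, 0 < c ∧ ∀ (v : EE 8 → ℝ) (y : EE 8), Sol v → v y = 0 →
  ∀ ρ : ℝ, 1 ≤ ρ → c * ρ ^ 7 ≤ mu v (ball y ρ) (fun _ => 1)

/-- the error terms of Modica's monotonicity formula are summable -/
def MonStmt : Prop := ∀ (v : EE 8 → ℝ) (Θ : ℝ), Sol v → EnB v Θ → ∃ C : ℝ, ∀ R : ℝ, 1 ≤ R →
  ∫ x in ball (0 : EE 8) R,
    (en v x / br x ^ 9 + PP v x / br x ^ 7 + ⟪∇ v x, x⟫ ^ 2 / br x ^ 9) ≤ C

/-- `⟨x⟩⁻⁵` is `μ`-harmonic up to absorbable errors -/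
def KStmt : Prop := ∀ (v : EE 8 → ℝ) (Θ : ℝ), Sol v → EnB v Θ → ∀ η : ℝ, 0 < η → ∃ C : ℝ,
  ∀ R : ℝ, 1 ≤ R → ∀ F G : EE 8 → ℝ, ContDiff ℝ 1 F → (∀ x, |F x| ≤ 1) → Continuous G →
    (∀ x, gsq F x ≤ G x) →
    |∫ x, gin F (zeta R) x * psi v x ^ 2| ≤ η * (∫ x, G x * zeta R x * psi v x ^ 2) + C

/-- curvature seen by `σ` is `o(r⁵)` -/
def SigStmt : Prop := ∀ u Θ, Mo u Θ →
  (ContDiff ℝ ∞ (sig u) ∧ (∀ x, 0 < sig u x ∧ sig u x ≤ 1) ∧ ∀ x, Lm u (sig u) x ≤ 0) ∧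
  ∀ ε : ℝ, 0 < ε → ∃ r1 : ℝ, ∀ r, r1 ≤ r → mu u (ball 0 r) (curv u (sig u)) ≤ ε ^ 2 * r ^ 5

/-- exact Schoen inequality -/
def SchStmt : Prop := ∀ (n : ℕ) (v η : EE n → ℝ) (e : EE n), Sol v → Stable v → ‖e‖ = 1 →
  ContDiff ℝ 1 η → HasCompactSupport η →
  ∫ x, (hsq (dd v) x + qq v x * tt v x) * η x ^ 2 * psi v x ^ 2 ≤
    6 * ∫ x, ‖∇ (dd v) x - e‖ ^ 2 * gsq η x * psi v x ^ 2

/-- small tilt gives small curvature -/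
def EpsStmt : Prop := ∀ u Θ, Mo u Θ → ∀ A : ℝ, ∃ C : ℝ, 0 ≤ C ∧ ∀ (r θ : ℝ) (e : EE 8), 1 ≤ r →
  0 < θ → θ ≤ 1 → ‖e‖ = 1 →
  mu u (ball 0 (2 * r)) (fun x => ‖∇ (dd u) x - e‖ ^ 2) ≤ A * θ ^ 4 * r ^ 7 →
  mu u (ball 0 r) (curv u fun _ => 1) ≤ C * θ ^ 2 * r ^ 5

/-- mass, tails in depth, and the mean of `t` -/
def TailStmt : Prop := ∀ u Θ, Mo u Θ → ∃ C : ℝ, 0 < C ∧ ∀ (y : EE 8) (r : ℝ), 1 ≤ r →
  mu u (ball y r) (fun _ => 1) ≤ C * r ^ 7 ∧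
  (∀ T : ℝ, 0 ≤ T → mu u (ball y r ∩ {x | T < |dd u x|}) (fun _ => 1) ≤ C * Real.exp (-T) * r ^ 7) ∧
  mu u (ball y r) (tt u) ≤ C * r ^ 6

/-- flatness in height gives small tilt excess with respect to a unit vector -/
def EStmt : Prop := ∀ u Θ, Mo u Θ → Area u → ∃ (p : ℕ) (C : ℝ), 1 ≤ p ∧ ∀ r θ : ℝ, 0 < θ → θ ≤ 1 →
  1 ≤ r * θ ^ p → Flat u (4 * r) (θ ^ p) →
  ∃ e : EE 8, ‖e‖ = 1 ∧ mu u (ball 0 (2 * r)) (fun x => ‖∇ (dd u) x - e‖ ^ 2) ≤ C * θ ^ 4 * r ^ 7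

/-- little bad mass in a ball gives the alternative -/
def AltStmt : Prop := ∀ u Θ, Mo u Θ → ∃ c0 : ℝ, 0 < c0 ∧ ∀ ε : ℝ, 0 < ε → ε ≤ 1 / 2 →
  ∃ s1 : ℝ, ∀ s, s1 ≤ s → ∀ y : EE 8,
    mu u (ball y s ∩ bad u (ε / s)) (fun _ => 1) ≤ c0 * s ^ 7 → Alt u y s ε

/-- pigeonhole on the heights of a tube -/
def PickStmt : Prop := ∀ (u : EE 8 → ℝ) (J : ℕ) (s φ M : ℝ), Sol u → 1 ≤ J → 0 < s →
  mu u (tube s ((2 * J + 1) * s) ∩ bad u φ) (fun _ => 1) ≤ J * M →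
  ∃ h1 h2 : ℝ, 0 ≤ h1 ∧ h1 ≤ 2 * J * s ∧ 0 ≤ h2 ∧ h2 ≤ 2 * J * s ∧
    mu u (ball (h1 • e8) s ∩ bad u φ) (fun _ => 1) ≤ M ∧
    mu u (ball (-(h2 • e8)) s ∩ bad u φ) (fun _ => 1) ≤ M

/-- vertical variation is controlled by the mass of `σ` -/
def VertStmt : Prop := ∀ u Θ, Mo u Θ → ∀ s h1 h2 S : ℝ, 0 < s → 0 ≤ h1 → 0 ≤ h2 →
  s + h1 ≤ S → s + h2 ≤ S →
  ∫ x in ball (0 : EE 8) s, (Phi (u (x + h1 • e8)) - Phi (u (x - h2 • e8))) ≤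
    (h1 + h2) * mu u (ball 0 S) (sig u)

/-- sandwich between two nearly affine profiles -/
def SandStmt : Prop := ∀ u Θ, Mo u Θ → ∀ β : ℝ, 0 < β → β ≤ 1 → ∃ δ s1 : ℝ, 0 < δ ∧
  ∀ s h1 h2 : ℝ, s1 ≤ s → 0 ≤ h1 → 0 ≤ h2 →
    Alt u (h1 • e8) s (β / 1000) → Alt u (-(h2 • e8)) s (β / 1000) →
    ∫ x in ball (0 : EE 8) s, (Phi (u (x + h1 • e8)) - Phi (u (x - h2 • e8))) ≤ δ * s ^ 8 →
    Flat u (s / 4) (5 * β)

/-- flat at all large scales -/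
def FlatStmt : Prop := ∀ u Θ, Mo u Θ → Tube u → SM u →
  ∀ β : ℝ, 0 < β → ∃ s1 : ℝ, ∀ s, s1 ≤ s → Flat u s β

/-- vanishing height forces `t = 0` somewhere -/
def FinStmt : Prop := ∀ u Θ, Mo u Θ →
  (∀ η R0 : ℝ, 0 < η → ∃ R, R0 ≤ R ∧ 0 < R ∧ Flat u R (η / R)) → ∃ x, tt u x = 0

/-- the conclusion of X7 with the origin on the zero set -/
def CoreStmt : Prop := ∀ u Θ, Mo u Θ → ∃ x, tt u x = 0

/-- the conclusion of X7 (consumed by `N067/A/Top`) -/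
def X7Stmt : Prop := ∀ (u : EE 8 → ℝ) (Θ : ℝ), Sol u → MonoLast (n := 7) u → EnB u Θ →
  ∃ x, tt u x = 0

end

end Crest.Agent.N067.X7
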