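import Crest.Agent.N067.X7.Basic

/-! # Row 67, X7: E
Area gives (p0, C0); take p = 4 p0 + 6.  If theta >= 1/2: any unit e, |grad d - e|^2 <= 4, total mass <= C r^7.  Else
 f = 2 r theta^(4 p0) in [1, 2r]; mass of ball(2r) cap bad(1/f) <= C theta^4 r^7 (pow_le_pow_left contrapositive: x^p0 <= C0 theta^(4p0) => x <= (max C0 1) theta^4);
 mass of {t > theta^2} <= C r^6/theta^2 <= C theta^4 r^7 (1/r <= theta^p).  G = ball(2r) minus these two sets.
 For x in G, displacement l = f theta^2 <= 2r in the direction of grad d x - e0 (e0 = slope of Flat, sup error 4 r theta^p on ball 4r):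
 |grad d x - e0| l <= 8 r theta^p + l^2/(2f), so |grad d x - e0| <= 5 theta^2.  G empty: any unit e.  Else x0 in G, e = grad d x0/|grad d x0|,
 1 - |grad d x0| <= t <= theta^2, so |grad d x - e| <= 11 theta^2 on G.  mu_le_add twice.
-/

set_option autoImplicit false

open MeasureTheory Laplacian InnerProductSpace Topology Filter Set Metric
open scoped RealInnerProductSpace ContDiff Gradient

namespace Crest.Agent.N067.X7

open Crest.Agent.R077

namespace E'

theorem exists_unit (g : EE 8) (hg : ‖g‖ ≤ 1) : ∃ e : EE 8, ‖e‖ = 1 ∧ ‖g - e‖ ≤ 1 - ‖g‖ ^ 2 := by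
  by_cases h : g = 0
  · exact ⟨EuclideanSpace.single 0 1, by simp, by simp [h]⟩
  have h0 : 0 < ‖g‖ := norm_pos_iff.2 h
  refine ⟨‖g‖⁻¹ • g, by rw [norm_smul, norm_inv, norm_norm, inv_mul_cancel₀ h0.ne'], ?_⟩
  have h1 : 1 ≤ ‖g‖⁻¹ := (one_le_inv₀ h0).2 hg
  rw [show g - ‖g‖⁻¹ • g = (1 - ‖g‖⁻¹) • g by rw [sub_smul, one_smul], norm_smul,
    Real.norm_of_nonpos (by linarith), neg_sub, sub_mul, inv_mul_cancel₀ h0.ne', one_mul]
  nlinarith

theorem slope {v : EE 8 → ℝ} {x e : EE 8} {c φ r b l : ℝ} (hP : Par v x φ)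
    (hF : ∀ z ∈ ball (0 : EE 8) (4 * r), |dd v z - ⟪e, z⟫ - c| ≤ b) (hx : x ∈ ball (0 : EE 8) (2 * r))
    (hφ : 0 ≤ φ) (hl : 0 < l) (hl' : l ≤ 2 * r) :
    ‖∇ (dd v) x - e‖ * l ≤ 2 * b + φ / 2 * l ^ 2 := by
  rw [mem_ball_zero_iff] at hx
  have h1 := hF x (by rw [mem_ball_zero_iff]; linarith)
  set w := ∇ (dd v) x - e with hw
  by_cases h : w = 0
  · have := (abs_nonneg _).trans h1
    rw [h, norm_zero, zero_mul]; positivity
  have h0 : 0 < ‖w‖ := norm_pos_iff.2 h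
  have h2 : ‖(l / ‖w‖) • w‖ = l := by
    rw [norm_smul, Real.norm_of_nonneg (by positivity), div_mul_cancel₀ _ h0.ne']
  have h3 := hF (x + (l / ‖w‖) • w) (by
    rw [mem_ball_zero_iff]; linarith [norm_add_le x ((l / ‖w‖) • w)])
  have h4 := hP (x + (l / ‖w‖) • w)
  rw [add_sub_cancel_left, h2] at h4
  have h5 : ⟪w, (l / ‖w‖) • w⟫ = ‖w‖ * l := by
    rw [real_inner_smul_right, real_inner_self_eq_norm_sq]; field_simp
  rw [inner_add_right] at h3
  conv_lhs at h5 => enter [2]; rw [hw]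
  rw [inner_sub_left] at h5
  linarith [(abs_le.1 h1).1, (abs_le.1 h3).2, (abs_le.1 h4).1]

end E'

open E'

theorem ee (hB : Bas) (hT : TailStmt) : EStmt := by
  intro u Θ hM ⟨p, C0, hp, hA⟩
  obtain ⟨C, hC, hT⟩ := hT u Θ hM
  have hS := hM.sol
  refine ⟨4 * p + 6, 128 * (121 * C + 4 * max C0 1 + 2 * C), by omega,
    fun r θ h0 h1 hr ⟨e0, c, hF⟩ => ?_⟩
  have hp1 : θ ^ (4 * p + 6) ≤ 1 := pow_le_one₀ h0.le h1
  have hp0 : 0 < θ ^ (4 * p + 6) := by positivity
  have hr0 : 0 < r := (mul_pos_iff_of_pos_right hp0).1 (by linarith)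
  have hr1 : 1 ≤ r := by nlinarith
  have hq0 : 0 < θ ^ (4 * p) := by positivity
  have hq1 : θ ^ (4 * p) ≤ 1 := pow_le_one₀ h0.le h1
  have h6 : θ ^ 6 ≤ 1 := pow_le_one₀ h0.le h1
  have h2 : θ ^ 2 ≤ 1 := pow_le_one₀ h0.le h1
  rw [pow_add] at hr hF
  set q := θ ^ (4 * p) with hq
  have hf1 : 1 ≤ 2 * r * q := by nlinarith [mul_pos hr0 hq0]
  have hf2 : 2 * r * q ≤ 2 * r := by nlinarith
  obtain ⟨t1, -, t3⟩ := hT 0 (2 * r) (by linarith)
  set B1 := ball (0 : EE 8) (2 * r) ∩ bad u (1 / (2 * r * q)) with hB1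
  set B2 := ball (0 : EE 8) (2 * r) ∩ {x | θ ^ 2 < tt u x} with hB2
  have ct : Continuous (tt u) := by
    have := hB.cont_grad hS
    unfold tt; fun_prop
  have m1 : MeasurableSet B1 := measurableSet_ball.inter (hB.meas_bad hS _)
  have m2 : MeasurableSet B2 :=
    measurableSet_ball.inter (isOpen_lt continuous_const ct).measurableSet
  set G := (ball (0 : EE 8) (2 * r) \ B1) \ B2 with hG
  have mG : MeasurableSet G := (measurableSet_ball.diff m1).diff m2
  have sG : G ⊆ ball 0 (2 * r) := sdiff_subset.trans sdiff_subset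
  have a1 : mu u B1 (fun _ => 1) ≤ max C0 1 * θ ^ 4 * (2 * r) ^ 7 := by
    have h := hA (2 * r) _ hf1 hf2
    rw [mul_div_cancel_left₀ _ (by positivity)] at h
    rw [← div_le_iff₀ (by positivity)]
    refine le_of_pow_le_pow_left₀ (n := p) (by omega) (by positivity) (h.trans ?_)
    rw [mul_pow, ← pow_mul]
    exact mul_le_mul_of_nonneg_right
      ((le_max_left _ _).trans (le_self_pow₀ (le_max_right _ _) (by omega))) hq0.le
  have a2 : mu u B2 (fun _ => 1) ≤ 64 * C * θ ^ 4 * r ^ 7 := by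
    have h := (mu_mono_fun hS continuous_const ct m2 inter_subset_left
      fun x hx => le_of_lt hx.2).trans
      ((mu_mono_set hS ct (hB.tt_nonneg hS) inter_subset_left Subset.rfl).trans t3)
    rw [mu_const] at h
    have h3 : 1 ≤ r * θ ^ 6 := by nlinarith [mul_pos hr0 (pow_pos h0 6)]
    refine le_of_mul_le_mul_left (h.trans ?_) (pow_pos h0 2)
    calc C * (2 * r) ^ 6 = 64 * C * r ^ 6 * 1 := by ring
      _ ≤ 64 * C * r ^ 6 * (r * θ ^ 6) := by gcongr
      _ = _ := by ring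
  have a3 : ∀ x ∈ G, ‖∇ (dd u) x - e0‖ ≤ 5 * θ ^ 2 := fun x hx => by
    have hP : Par u x (1 / (2 * r * q)) := not_not.1 fun h => hx.1.2 ⟨hx.1.1, h⟩
    have hl : 0 < 2 * r * q * θ ^ 2 := by positivity
    have h := slope hP hF hx.1.1 (by positivity) hl (by nlinarith)
    refine le_of_mul_le_mul_right (h.trans ?_) hl
    have e1 : 1 / (2 * r * q) / 2 * (2 * r * q * θ ^ 2) ^ 2 = θ ^ 2 / 2 * (2 * r * q * θ ^ 2) := by
      field_simp
    have e2 : 2 * (q * θ ^ 6 * (4 * r)) = 4 * θ ^ 2 * θ ^ 2 * (2 * r * q * θ ^ 2) := by ring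
    rw [e1, e2, ← add_mul]
    refine mul_le_mul_of_nonneg_right ?_ hl.le
    nlinarith [pow_pos h0 2]
  obtain ⟨e, he, a4⟩ : ∃ e : EE 8, ‖e‖ = 1 ∧ ∀ x ∈ G, ‖∇ (dd u) x - e‖ ≤ 11 * θ ^ 2 := by
    rcases G.eq_empty_or_nonempty with h | ⟨x0, hx0⟩
    · exact ⟨EuclideanSpace.single 0 1, by simp, by simp [h]⟩
    obtain ⟨e, he, h3⟩ := exists_unit _ (hB.norm_grad_le hS x0)
    have h4 : tt u x0 ≤ θ ^ 2 := not_lt.1 fun h => hx0.2 ⟨hx0.1.1, h⟩
    refine ⟨e, he, fun x hx => ?_⟩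
    have h5 := norm_sub_le_norm_sub_add_norm_sub (∇ (dd u) x) e0 e
    have h6 := norm_sub_le_norm_sub_add_norm_sub e0 (∇ (dd u) x0) e
    rw [norm_sub_rev e0 (∇ (dd u) x0)] at h6
    unfold tt at h4
    linarith [a3 x hx, a3 x0 hx0]
  refine ⟨e, he, ?_⟩
  set F : EE 8 → ℝ := fun x => ‖∇ (dd u) x - e‖ ^ 2 with hFd
  have cF : Continuous F := ((hB.cont_grad hS).sub continuous_const).norm.pow 2
  have F0 : ∀ x, 0 ≤ F x := fun x => sq_nonneg _
  have F4 : ∀ x, F x ≤ 4 := fun x => by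
    have h3 := norm_sub_le (∇ (dd u) x) e
    have h4 := hB.norm_grad_le hS x
    simp only [F]
    nlinarith [norm_nonneg (∇ (dd u) x - e)]
  have b1 := mu_le_add hS cF F0 (A := ball 0 (2 * r)) (B := ball 0 (2 * r) \ B1) m1
    (subset_sdiff_union _ _) sdiff_subset inter_subset_left
  have b2 := mu_le_add hS cF F0 (A := ball 0 (2 * r) \ B1) (B := G) m2
    (subset_sdiff_union _ _) sG inter_subset_left
  have b3 := mu_mono_fun hS cF continuous_const m1 inter_subset_left fun x _ => F4 x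
  have b4 := mu_mono_fun hS cF continuous_const m2 inter_subset_left fun x _ => F4 x
  have b5 := mu_mono_fun hS cF (continuous_const (y := 121 * θ ^ 4)) mG sG fun x hx => by
    have := pow_le_pow_left₀ (norm_nonneg _) (a4 x hx) 2
    simp only [F]; linarith
  have b6 := (mu_mono_set hS continuous_const (fun _ => zero_le_one) sG Subset.rfl).trans t1
  rw [mu_const] at b3 b4 b5
  have b7 := mul_le_mul_of_nonneg_left b6 (by positivity : 0 ≤ 121 * θ ^ 4)
  nlinarith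

end Crest.Agent.N067.X7
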