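import Crest.Agent.N067.X7.Basic

/-! # Row 67, X7: Fin
fin: for all x,h: |d(x+h) + d(x-h) - 2 d x| <= 4 eta for every eta, so = 0; differentiate twice in tau at 0 along h = tau ev i
 (or: d(x+h) - d x is additive... simplest: derivative in tau gives pdv i d (x + tau e_i) = pdv i d (x - tau e_i), again: pdv i pdv i d = 0), so Lap d = 0 (lap_eq) and
 DEqStmt gives u x * t x = 0; u(e8) > u 0 = 0 by MonoLast.
x7_of_core: u has a zero y (else u > 0 or u < 0 everywhere by connectedness, BallStmt gives 1 - eps <= |u 0| for every eps, contradiction with Sol.lt);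
 w = fun x => u (x + y) is Sol, MonoLast, EnB (translate the ball), Stable (monoStab_of hB.reg), w 0 = 0, tt w x = tt u (x + y).
-/

set_option autoImplicit false

open MeasureTheory Laplacian InnerProductSpace Topology Filter Set Metric
open scoped RealInnerProductSpace ContDiff Gradient

namespace Crest.Agent.N067.X7

open Crest.Agent.R077

namespace Fin'

variable {n : ℕ}

/-- a differentiable midpoint-affine function has constant derivative -/
theorem fderiv_const_of_mid {f : EE n → ℝ} (hf : Differentiable ℝ f)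
    (h : ∀ x y, f (x + y) + f (x - y) = 2 * f x) (b : EE n) : fderiv ℝ f b = fderiv ℝ f 0 := by
  set x : EE n := (1 / 2 : ℝ) • b with hx
  have e1 : x + x = b := by rw [hx, ← add_smul]; norm_num
  have h1 : HasFDerivAt (fun y => f (x + y)) (fderiv ℝ f b) x := by
    have := (hf (x + x)).hasFDerivAt.comp x ((hasFDerivAt_id x).const_add x)
    rw [e1, ContinuousLinearMap.comp_id] at this
    exact this
  have h2 : HasFDerivAt (fun y => f (x - y)) (-fderiv ℝ f 0) x := by
    have := (hf (x - x)).hasFDerivAt.comp x ((hasFDerivAt_id x).const_sub x)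
    rw [sub_self, ContinuousLinearMap.comp_neg, ContinuousLinearMap.comp_id] at this
    exact this
  have h3 : HasFDerivAt (fun y => f (x + y) + f (x - y)) (0 : EE n →L[ℝ] ℝ) x := by
    rw [show (fun y => f (x + y) + f (x - y)) = fun _ => 2 * f x from funext (h x)]
    exact hasFDerivAt_const _ _
  have h4 := (h1.add h2).unique h3
  rwa [add_neg_eq_zero] at h4

theorem lap_shift (w : EE n → ℝ) (x z : EE n) : (Δ fun y => w (x + y)) z = (Δ w) (x + z) := by
  simp only [laplacian_eq_iteratedFDeriv_stdOrthonormalBasis, iteratedFDeriv_comp_add_left]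

theorem grad_shift (w : EE n → ℝ) (x z : EE n) : ∇ (fun y => w (x + y)) z = ∇ w (x + z) := by
  simp only [gradient, fderiv_comp_add_left]

theorem exists_zero (hB : Bas) {u : EE n → ℝ} (hu : Sol u) : ∃ y, u y = 0 := by
  by_contra hne
  push Not at hne
  have key : ∀ v : EE n → ℝ, Sol v → (∀ y, v y ≠ 0) → ¬ 0 < v 0 := fun v hv h0 hp => by
    have hpos : ∀ y, 0 < v y := fun y => by
      by_contra hy
      obtain ⟨z, hz⟩ := intermediate_value_univ y 0 hv.sm.continuous ⟨not_lt.1 hy, hp.le⟩
      exact h0 z hz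
    have h1 := (abs_lt.1 (hv.lt 0)).2
    obtain ⟨R, -, hR⟩ := hB.ball n ((1 - v 0) / 2) (by linarith)
    have := hR v hv.isSol 0 fun y _ => hpos y
    linarith
  rcases lt_or_gt_of_ne (hne 0) with h | h
  · refine key (fun y => -u y) ⟨hu.sm.neg, fun y => by rw [abs_neg]; exact hu.lt y, fun y => ?_⟩
      (fun y => neg_ne_zero.2 (hne y)) (neg_pos.2 h)
    rw [lap_neg' hu.isSol.c2.contDiffAt, hu.eq]
    ring
  · exact key u hu hne h

end Fin'

open Fin' in
theorem fin (hB : Bas) : FinStmt := by
  intro u Θ hM h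
  have hd := hB.dd_smooth hM.sol
  have hmid : ∀ x y, dd u (x + y) + dd u (x - y) = 2 * dd u x := fun x y => by
    have key : ∀ η : ℝ, 0 < η → |dd u (x + y) + dd u (x - y) - 2 * dd u x| ≤ 4 * η := by
      intro η hη
      obtain ⟨R, h1, h2, e, c, h3⟩ := h η (‖x‖ + ‖y‖ + 1) hη
      rw [div_mul_cancel₀ _ h2.ne'] at h3
      have a1 := abs_le.1 (h3 (x + y) (mem_ball_zero_iff.2 (by linarith [norm_add_le x y])))
      have a2 := abs_le.1 (h3 (x - y) (mem_ball_zero_iff.2 (by linarith [norm_sub_le x y])))
      have a3 := abs_le.1 (h3 x (mem_ball_zero_iff.2 (by linarith [norm_nonneg y])))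
      rw [inner_add_right] at a1
      rw [inner_sub_right] at a2
      exact abs_le.2 ⟨by linarith, by linarith⟩
    have h0 : |dd u (x + y) + dd u (x - y) - 2 * dd u x| ≤ 0 :=
      le_of_forall_pos_le_add fun ε hε => by linarith [key (ε / 4) (by linarith)]
    exact sub_eq_zero.1 (abs_nonpos_iff.1 h0)
  have hc := fderiv_const_of_mid (hd.differentiable (by simp)) hmid
  have hlap : ∀ x, (Δ (dd u)) x = 0 := fun x => by
    rw [lap_eq (contDiff_infty.1 hd 2).contDiffAt]
    refine Finset.sum_eq_zero fun i _ => ?_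
    rw [show pdv i (dd u) = fun _ => fderiv ℝ (dd u) 0 (ev i) from
      funext fun y => by rw [pdv, hc]]
    exact pdv_const _ _ _
  by_contra hne
  push Not at hne
  have hu : u = fun _ => 0 := funext fun x => by
    have h1 := ((hB.deq 8 u hM.sol).2 x).1
    rw [hlap] at h1
    have h2 : Real.sqrt 2 ≠ 0 := by positivity
    simpa [h2, hne x] using h1
  have h1 := hM.mono 0
  rw [hu] at h1
  simp at h1

open Fin' in
theorem x7_of_core (hB : Bas) (hC : CoreStmt) : X7Stmt := by
  intro u Θ hu hm hE
  obtain ⟨y, hy⟩ := exists_zero hB hu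
  have hw : Sol fun x => u (y + x) :=
    ⟨hu.sm.comp (contDiff_const.add contDiff_id), fun x => hu.lt _, fun x => by
      rw [lap_shift, hu.eq]⟩
  have hm' : MonoLast (n := 7) fun x => u (y + x) := fun x => by
    rw [fderiv_comp_add_left]; exact hm _
  have hE' : EnB (fun x => u (y + x)) Θ := fun x R hR => by
    have e1 : en (fun x => u (y + x)) = fun x => en u (y + x) := funext fun x => by
      simp only [en, grad_shift]
    have e2 := (measurePreserving_add_left (volume : Measure (EE 8)) y).setIntegral_preimage_emb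
      (Homeomorph.addLeft y).measurableEmbedding (en u) (ball (y + x) R)
    have e3 : (fun x => y + x) ⁻¹' ball (y + x) R = ball x R := by
      ext z; simp [mem_ball]
    rw [e3] at e2
    rw [e1, e2]
    exact hE _ R hR
  obtain ⟨x, hx⟩ := hC _ Θ ⟨hw, hm', monoStab_of hB.reg 7 _ hw.isSol hm', hE', by simpa using hy⟩
  refine ⟨y + x, ?_⟩
  rw [← hx, tt, tt, ← grad_shift]
  rfl

end Crest.Agent.N067.X7
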