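import Crest.Agent.N067.X7.Basic

/-! # Row 67, X7: Sand (helper46)
`ε = β/1000`, `P x = u (x + h1 e8) ≥ u x ≥ M x = u (x - h2 e8)`, `u 0 = 0`.
KEY: no ball `B(x1, β s/24) ⊆ ball 0 s` has `P ≥ 1/2` and `M ≤ 0` (the integrand is `≥ 11/24`
there and `≥ 0` everywhere). The four cases of the two alternatives either produce such a ball
or squeeze `d` between two close affine functions.
-/

set_option autoImplicit false

open MeasureTheory Laplacian InnerProductSpace Topology Filter Set Metric
open scoped RealInnerProductSpace ContDiff Gradient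

namespace Crest.Agent.N067.X7

open Crest.Agent.R077

namespace Sand'

theorem Phi_mono {a b : ℝ} (ha : |a| ≤ 1) (hb : |b| ≤ 1) (hab : b ≤ a) : Phi b ≤ Phi a := by
  have h1 := abs_le.1 ha
  have h2 := abs_le.1 hb
  have h3 : a ^ 2 ≤ 1 := by nlinarith
  have h4 : b ^ 2 ≤ 1 := by nlinarith
  have h5 : a * b ≤ 1 := by nlinarith [sq_nonneg (a - b)]
  have h6 : Phi a - Phi b = (a - b) * (1 - (a ^ 2 + a * b + b ^ 2) / 3) := by unfold Phi; ring
  have h7 : 0 ≤ (a - b) * (1 - (a ^ 2 + a * b + b ^ 2) / 3) :=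
    mul_nonneg (by linarith) (by linarith)
  linarith

theorem Phi_gap {a b : ℝ} (ha : |a| ≤ 1) (hb : |b| ≤ 1) (h1 : 1 / 2 ≤ a) (h2 : b ≤ 0) :
    11 / 24 ≤ Phi a - Phi b := by
  have h3 := Phi_mono ha (b := 1 / 2) (by rw [abs_le]; constructor <;> norm_num) h1
  have h4 := Phi_mono (a := 0) (by simp) hb h2
  have h5 : Phi (1 / 2) = 11 / 24 := by unfold Phi; norm_num
  have h6 : Phi 0 = 0 := by unfold Phi; norm_num
  linarith

theorem up_mono {u : EE 8 → ℝ} (hs : Sol u) (hm : MonoLast (n := 7) u) (x : EE 8) {h : ℝ}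
    (hh : 0 ≤ h) : u x ≤ u (x + h • e8) := by
  have hd : ∀ t : ℝ, HasDerivAt (fun t : ℝ => u (x + t • e8)) (fderiv ℝ u (x + t • e8) e8) t := by
    intro t
    have h1 : HasDerivAt (fun t : ℝ => x + t • e8) e8 t := by
      simpa using ((hasDerivAt_id t).smul_const e8).const_add x
    exact ((hs.sm.differentiable (by simp)) _).hasFDerivAt.comp_hasDerivAt t h1
  have hmono : Monotone fun t : ℝ => u (x + t • e8) :=
    monotone_of_deriv_nonneg (fun t => (hd t).differentiableAt)
      fun t => by rw [(hd t).deriv]; exact (hm _).le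
  simpa using hmono hh

theorem dd_mono {u : EE 8 → ℝ} (hs : Sol u) {x y : EE 8} (h : u x ≤ u y) : dd u x ≤ dd u y := by
  unfold dd
  exact mul_le_mul_of_nonneg_left
    (Real.artanh_le_artanh (abs_lt.1 (hs.lt x)).1 (abs_lt.1 (hs.lt y)).2 h) (Real.sqrt_nonneg _)

theorem half_le {u : EE 8 → ℝ} (hs : Sol u) {x : EE 8}
    (h : Real.sqrt 2 * Real.artanh (1 / 2) ≤ dd u x) : 1 / 2 ≤ u x := by
  by_contra h1
  have h2 := Real.artanh_lt_artanh (abs_lt.1 (hs.lt x)).1 (by norm_num : (1 / 2 : ℝ) < 1)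
    (not_le.1 h1)
  have h3 : (0 : ℝ) < Real.sqrt 2 := by positivity
  unfold dd at h
  nlinarith

theorem nonpos_of {u : EE 8 → ℝ} (hs : Sol u) {x : EE 8} (h : dd u x ≤ 0) : u x ≤ 0 := by
  by_contra h1
  have := (dd_pos_iff hs x).2 (not_le.1 h1)
  linarith

/-- the volume of the unit ball -/
noncomputable def om : ℝ := (volume : Measure (EE 8)).real (ball 0 1)

theorem om_pos : 0 < om :=
  ENNReal.toReal_pos (measure_ball_pos _ _ one_pos).ne' measure_ball_lt_top.ne

theorem vol_ball (x : EE 8) {r : ℝ} (hr : 0 ≤ r) :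
    (volume : Measure (EE 8)).real (ball x r) = r ^ 8 * om := by
  unfold om
  rw [measureReal_def, Measure.addHaar_ball _ x hr, ENNReal.toReal_mul,
    ENNReal.toReal_ofReal (by positivity), measureReal_def]
  simp

/-- KEY -/
theorem key {F : EE 8 → ℝ} (hF : Continuous F) (h0 : ∀ x, 0 ≤ F x) {x1 : EE 8} {ρ s c : ℝ}
    (hρ : 0 ≤ ρ) (hsub : ball x1 ρ ⊆ ball 0 s) (hc : ∀ x ∈ ball x1 ρ, c ≤ F x) :
    c * (ρ ^ 8 * om) ≤ ∫ x in ball (0 : EE 8) s, F x := by
  have h1 : ∫ x in ball x1 ρ, F x ≤ ∫ x in ball (0 : EE 8) s, F x :=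
    setIntegral_mono_set (intOn hF Subset.rfl) (Eventually.of_forall h0) hsub.eventuallyLE
  have h2 : ∫ _ in ball x1 ρ, c ≤ ∫ x in ball x1 ρ, F x :=
    setIntegral_mono_on (intOn continuous_const Subset.rfl) (intOn hF Subset.rfl)
      measurableSet_ball hc
  rw [setIntegral_const, vol_ball x1 hρ, smul_eq_mul] at h2
  linarith

/-- the alternative, centred at the origin -/
theorem alt_shift {u : EE 8 → ℝ} {y : EE 8} {s ε : ℝ} (h : Alt u y s ε) :
    (∀ x : EE 8, ‖x‖ < s / 2 → 0 < u (x + y)) ∨ (∀ x : EE 8, ‖x‖ < s / 2 → u (x + y) < 0) ∨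
    ∃ (e : EE 8) (c : ℝ), ‖e‖ = 1 ∧ |c| ≤ s / 2 + 4 * ε * s ∧
      ∀ x : EE 8, ‖x‖ < s → |dd u (x + y) - ⟪e, x⟫ - c| ≤ 4 * ε * s := by
  have hm : ∀ (x : EE 8) (r : ℝ), ‖x‖ < r → x + y ∈ ball y r := fun x r hx => by
    rw [mem_ball, dist_eq_norm]; simpa using hx
  rcases h with h | h | ⟨e, c, he, hc, h⟩
  · exact Or.inl fun x hx => h _ (hm x _ hx)
  · exact Or.inr (Or.inl fun x hx => h _ (hm x _ hx))
  · refine Or.inr (Or.inr ⟨e, c, he, hc, fun x hx => ?_⟩)
    simpa using h _ (hm x _ hx)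

/-- a unit vector pairs with `x` like with the centre `t e` up to the radius -/
theorem inner_near {e x : EE 8} (he : ‖e‖ = 1) {t ρ : ℝ} (hx : x ∈ ball (t • e) ρ) :
    |⟪e, x⟫ - t| ≤ ρ ∧ ‖x‖ < |t| + ρ := by
  rw [mem_ball, dist_eq_norm] at hx
  constructor
  · have h1 : ⟪e, x - t • e⟫ = ⟪e, x⟫ - t := by
      rw [inner_sub_right, real_inner_smul_right, real_inner_self_eq_norm_sq, he]; ring
    rw [← h1]
    refine (abs_real_inner_le_norm _ _).trans ?_
    rw [he, one_mul]; exact hx.le
  · have h1 : ‖x‖ ≤ ‖t • e‖ + ‖x - t • e‖ := by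
      have := norm_add_le (t • e) (x - t • e)
      rwa [add_sub_cancel] at this
    rw [norm_smul, he, Real.norm_eq_abs, mul_one] at h1
    linarith

/-- an affine function that is nonnegative on a ball varies little on smaller balls -/
theorem aff_small {a : EE 8} {g0 s θ : ℝ} (hθ : 0 < θ)
    (h : ∀ x : EE 8, ‖x‖ < s → 0 ≤ ⟪a, x⟫ + g0) {x : EE 8} (hx : ‖x‖ < θ * s) :
    |⟪a, x⟫| ≤ θ * g0 := by
  have h1 : ‖θ⁻¹ • x‖ < s := by
    rw [norm_smul, Real.norm_eq_abs, abs_of_pos (inv_pos.2 hθ), inv_mul_lt_iff₀ hθ]; exact hx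
  have h2 := h _ h1
  have h3 := h (-(θ⁻¹ • x)) (by rwa [norm_neg])
  rw [inner_neg_right] at h3
  rw [real_inner_smul_right] at h2 h3
  have h4 : ⟪a, x⟫ = θ * (θ⁻¹ * ⟪a, x⟫) := by field_simp
  rw [abs_le]
  constructor <;> nlinarith

end Sand'

open Sand'

theorem sand (hB : Bas) : SandStmt := by
  intro u Θ hM β hβ hβ1
  obtain ⟨R0, hR0, hball⟩ := hB.ball 8 (1 / 2) (by norm_num)
  have hs := hM.sol
  set T0 : ℝ := Real.sqrt 2 * Real.artanh (1 / 2) with hT0
  have hom := om_pos
  refine ⟨11 / 48 * ((β / 24) ^ 8 * om), max (6 * R0) (30 * T0 / β), by positivity, ?_⟩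
  intro s h1 h2 hs1 hh1 hh2 hA1 hA2 hI
  have hsR : 6 * R0 ≤ s := (le_max_left _ _).trans hs1
  have hsT : 30 * T0 ≤ β * s := by
    have := (le_max_right _ _).trans hs1
    rw [div_le_iff₀ hβ] at this; linarith
  have hs0 : 0 < s := by linarith
  have hb0 : 0 < β * s := by positivity
  have hbs : β * s ≤ s := by nlinarith
  have hP : ∀ x, u x ≤ u (x + h1 • e8) := fun x => up_mono hs hM.mono x hh1
  have hMi : ∀ x, u (x + -(h2 • e8)) ≤ u x := fun x => by
    simpa using up_mono hs hM.mono (x + -(h2 • e8)) hh2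
  have hd0 : dd u 0 = 0 := by unfold dd; rw [hM.zero]; simp
  -- KEY
  have K : ∀ x1 : EE 8, ball x1 (β * s / 24) ⊆ ball 0 s →
      (∀ x ∈ ball x1 (β * s / 24), 1 / 2 ≤ u (x + h1 • e8) ∧ u (x + -(h2 • e8)) ≤ 0) →
      False := by
    intro x1 hsub hx
    have hu := hs.sm.continuous
    have hF : Continuous fun x : EE 8 => Phi (u (x + h1 • e8)) - Phi (u (x - h2 • e8)) := by
      unfold Phi; fun_prop
    have h := key hF (fun x => by
        rw [sub_eq_add_neg x]
        exact sub_nonneg.2 (Phi_mono (hs.lt _).le (hs.lt _).le ((hMi x).trans (hP x))))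
      (by positivity) hsub (c := 11 / 24) fun x hx' => by
        rw [sub_eq_add_neg x]
        exact Phi_gap (hs.lt _).le (hs.lt _).le (hx x hx').1 (hx x hx').2
    have h3 : (β * s / 24) ^ 8 = (β / 24) ^ 8 * s ^ 8 := by ring
    have h4 : 0 < (β / 24) ^ 8 * om * s ^ 8 := by positivity
    rw [h3] at h
    nlinarith
  -- one sign on the half ball gives `1/2` on the third
  have Hpos : (∀ x : EE 8, ‖x‖ < s / 2 → 0 < u (x + h1 • e8)) →
      ∀ x : EE 8, ‖x‖ < s / 3 → 1 / 2 ≤ u (x + h1 • e8) := by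
    intro h x hx
    have := hball u hs.isSol (x + h1 • e8) fun y hy => by
      have h5 := h (y - h1 • e8) (by
        rw [mem_ball, dist_eq_norm] at hy
        have h6 := norm_add_le x (y - (x + h1 • e8))
        have h7 : x + (y - (x + h1 • e8)) = y - h1 • e8 := by abel
        rw [h7] at h6
        linarith)
      rwa [sub_add_cancel] at h5
    linarith
  have hn0 : ‖(0 : EE 8)‖ < s / 2 := by rw [norm_zero]; positivity
  have hn0' : ‖(0 : EE 8)‖ < s := by rw [norm_zero]; positivity
  have e4 : 4 * (β / 1000) * s = β * s / 250 := by ring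
  rcases alt_shift hA1 with hp | hp | ⟨e, c, he, hc, hp⟩
  · have hp' := Hpos hp
    exfalso
    rcases alt_shift hA2 with hq | hq | ⟨e', c', he', hc', hq⟩
    · have := hq 0 hn0; have := hMi 0; rw [hM.zero] at this; linarith
    · refine K 0 (ball_subset_ball (by linarith)) fun x hx => ?_
      rw [mem_ball_zero_iff] at hx
      exact ⟨hp' x (by linarith), (hq x (by linarith)).le⟩
    · rw [e4] at hq
      have h5 := abs_le.1 (hq 0 hn0')
      have h6 := dd_mono hs (hMi 0)
      rw [inner_zero_right] at h5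
      have h7 : |-(s / 4)| = s / 4 := by rw [abs_neg, abs_of_pos (by positivity)]
      refine K ((-(s / 4)) • e') (fun x hx => ?_) fun x hx => ?_
      · have := (inner_near he' hx).2
        rw [mem_ball_zero_iff]; linarith
      · obtain ⟨h8, h9⟩ := inner_near he' hx
        have h10 := abs_le.1 (hq x (by linarith))
        have h11 := abs_le.1 h8
        exact ⟨hp' x (by linarith), nonpos_of hs (by linarith)⟩
  · have := hp 0 hn0; have := hP 0; rw [hM.zero] at this; linarith
  · rw [e4] at hp hc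
    have h5 := abs_le.1 (hp 0 hn0')
    have h6 := dd_mono hs (hP 0)
    rw [inner_zero_right] at h5
    rcases alt_shift hA2 with hq | hq | ⟨e', c', he', hc', hq⟩
    · have := hq 0 hn0; have := hMi 0; rw [hM.zero] at this; linarith
    · exfalso
      have h7 : |s / 4| = s / 4 := abs_of_pos (by positivity)
      refine K ((s / 4) • e) (fun x hx => ?_) fun x hx => ?_
      · have := (inner_near he hx).2
        rw [mem_ball_zero_iff]; linarith
      · obtain ⟨h8, h9⟩ := inner_near he hx
        have h10 := abs_le.1 (hp x (by linarith))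
        have h11 := abs_le.1 h8
        exact ⟨half_le hs (by linarith), (hq x (by linarith)).le⟩
    · rw [e4] at hq
      have hg : ∀ x : EE 8, ‖x‖ < s → 0 ≤ ⟪e - e', x⟫ + (c - c' + β * s / 125) := by
        intro x hx
        have h7 := abs_le.1 (hp x hx)
        have h8 := abs_le.1 (hq x hx)
        have h9 := dd_mono hs ((hMi x).trans (hP x))
        rw [inner_sub_left]; linarith
      by_cases hg0 : c - c' + β * s / 125 ≤ 4 / 5 * (β * s)
      · refine ⟨e, c, fun x hx => ?_⟩
        rw [mem_ball_zero_iff] at hx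
        have h7 := abs_le.1 (aff_small (θ := 1 / 4) (by norm_num) hg (x := x) (by linarith))
        rw [inner_sub_left] at h7
        have h8 := abs_le.1 (hp x (by linarith))
        have h9 := abs_le.1 (hq x (by linarith))
        have h10 := dd_mono hs (hMi x)
        have h11 := dd_mono hs (hP x)
        have h12 : 5 * β * (s / 4) = 5 / 4 * (β * s) := by ring
        rw [h12, abs_le]
        constructor <;> linarith
      · exfalso
        have h7 : |β * s / 12 - c| ≤ β * s / 12 + (s / 2 + β * s / 250) := by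
          have := abs_le.1 hc
          rw [abs_le]; constructor <;> linarith
        refine K ((β * s / 12 - c) • e) (fun x hx => ?_) fun x hx => ?_
        · have := (inner_near he hx).2
          rw [mem_ball_zero_iff]; linarith
        · obtain ⟨h8, h9⟩ := inner_near he hx
          have h10 := abs_le.1 (hp x (by linarith))
          have h11 := abs_le.1 (hq x (by linarith))
          have h12 := abs_le.1 h8
          have h13 := abs_le.1 (aff_small (θ := 3 / 4) (by norm_num) hg (x := x) (by linarith))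
          rw [inner_sub_left] at h13
          exact ⟨half_le hs (by linarith), nonpos_of hs (by linarith)⟩

end Crest.Agent.N067.X7
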