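import Crest.Agent.N067.X7.Basic

/-! # Row 67, X7: Sch
sch: a_i = d_i - e_i.  WeakStmt for f = d_i, zeta = a_i eta^2, summed: int q (N^2 - <grad d,e>) eta^2 = X + 2 I,
 X = int hsq eta^2, I = int eta sum_i a_i gin d_i eta, and N^2 - <grad d,e> = |grad d - e|^2/2 - t/2.
 dstab for w = a_i eta summed: int q |grad d - e|^2 eta^2 <= X + 2I + J, J = int |grad d - e|^2 gsq eta.
 Hence X/2 + Y/2 <= |I| + J/2 (Y = int q t eta^2), |I| <= X/4 + J pointwise (Cauchy-Schwarz + AM-GM).  All integrals against psi^2.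
eps: eta = cut r.  q = hsq + q t + Lm t / 2 (DEqStmt), WeakStmt with f = t, zeta = eta^2:
 int q eta^2 <= int (hsq + q t) eta^2 + int eta |gin t eta|, |gin t eta| eta <= theta^-2 hsq eta^2 + theta^2 gsq eta (gsq t <= 4 hsq),
 sch gives int (hsq + q t) eta^2 <= 6 C A theta^4 r^5, mu_one_le for the last term.  (A < 0 is vacuous or harmless: use max A 0.)
-/

set_option autoImplicit false

open MeasureTheory Laplacian InnerProductSpace Topology Filter Set Metric
open scoped RealInnerProductSpace ContDiff Gradient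

namespace Crest.Agent.N067.X7

open Crest.Agent.R077

namespace Sch'

variable {n : ℕ} {v η f g : EE n → ℝ} {x : EE n}

theorem amgm {y A B : ℝ} (hA : 0 ≤ A) (hB : 0 ≤ B) (h : y ^ 2 ≤ 4 * A * B) : -(A + B) ≤ y :=
  (abs_le_of_sq_le_sq' (by nlinarith [sq_nonneg (A - B)]) (add_nonneg hA hB)).1

theorem pdv_zero (hx : x ∉ tsupport η) (i : Fin n) : pdv i η x = 0 := by
  rw [pdv_congr (notMem_tsupport_iff_eventuallyEq.1 hx)]
  exact pdv_const 0 i x

theorem gsq_zero (hx : x ∉ tsupport η) : gsq η x = 0 := by simp [gsq, pdv_zero hx]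

theorem intg (hc : HasCompactSupport η) (hg : Continuous g)
    (h : ∀ x, η x = 0 → gsq η x = 0 → g x = 0) : Integrable g :=
  hg.integrable_of_hasCompactSupport (HasCompactSupport.intro hc.isCompact fun x hx =>
    h x (image_eq_zero_of_notMem_tsupport hx) (gsq_zero hx))

theorem gin_sq (hη : DifferentiableAt ℝ η x) :
    gin f (fun y => η y ^ 2) x = 2 * η x * gin f η x := by
  simp only [gin, pdv_sq hη, Finset.mul_sum]
  exact Finset.sum_congr rfl fun i _ => by ring

theorem gsq_mul (hf : DifferentiableAt ℝ f x) (hη : DifferentiableAt ℝ η x) (c : ℝ) :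
    ‖∇ (fun y => (f y - c) * η y) x‖ ^ 2 =
      gsq f x * η x ^ 2 + 2 * (f x - c) * η x * gin f η x + (f x - c) ^ 2 * gsq η x := by
  rw [← gsq_eq]
  simp only [gsq, gin, pdv_mul (hf.sub_const c) hη, pdv_sub_const, Finset.mul_sum,
    Finset.sum_mul, ← Finset.sum_add_distrib]
  exact Finset.sum_congr rfl fun i _ => by ring

theorem gin_mul (hf : DifferentiableAt ℝ f x) (hη : DifferentiableAt ℝ η x) (c : ℝ) :
    gin f (fun y => (f y - c) * η y ^ 2) x =
      gsq f x * η x ^ 2 + 2 * (f x - c) * η x * gin f η x := by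
  rw [gin_mul_right (hf.sub_const c) (hη.fun_pow 2), gin_sq hη]
  have : gin f (fun y => f y - c) x = gsq f x := by
    simp only [gin, gsq, pdv_sub_const, sq]
  rw [this]; ring

/-- one Jacobi field -/
theorem one (hW : WeakStmt) (h : Sol v) (hs : Stable v) (hf : ContDiff ℝ ∞ f)
    (hL : ∀ x, Lm v f x = -qq v x * f x) (c : ℝ) (hη : ContDiff ℝ 1 η)
    (hc : HasCompactSupport η) :
    ∫ x, (gsq f x / 2 + qq v x * (c ^ 2 - f x ^ 2)) * η x ^ 2 * psi v x ^ 2 ≤
      ∫ x, 3 * ((f x - c) ^ 2 * gsq η x * psi v x ^ 2) := by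
  have f1 : ContDiff ℝ 1 f := contDiff_infty.1 hf 1
  have df : ∀ x, DifferentiableAt ℝ f x := f1.differentiable one_ne_zero
  have dη : ∀ x, DifferentiableAt ℝ η x := hη.differentiable one_ne_zero
  have W := hW n v f (fun y => (f y - c) * η y ^ 2) h (contDiff_infty.1 hf 2)
    ((f1.sub contDiff_const).mul (hη.pow 2)) (St.cs_sq hc).mul_left
  have S := dstab n v h hs (fun y => (f y - c) * η y) ((f1.sub contDiff_const).mul hη) hc.mul_left
  simp only [hL, gin_mul (df _) (dη _), gsq_mul (df _) (dη _)] at W S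
  have c1 := f1.continuous
  have c2 := hη.continuous
  have c3 := cont_psi h
  have c4 := h.continuous_qq
  have c5 := cont_gsq f1
  have c6 := cont_gsq hη
  have c7 := cont_gin f1 hη
  have i1 : Integrable fun x => -qq v x * f x * ((f x - c) * η x ^ 2) * psi v x ^ 2 :=
    intg hc (by fun_prop) fun x a b => by simp [a]
  have i2 : Integrable fun x => (gsq f x * η x ^ 2 + 2 * (f x - c) * η x * gin f η x) *
      psi v x ^ 2 := intg hc (by fun_prop) fun x a b => by simp [a]
  have i3 : Integrable fun x => qq v x * ((f x - c) * η x) ^ 2 * psi v x ^ 2 :=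
    intg hc (by fun_prop) fun x a b => by simp [a]
  have i4 : Integrable fun x => (gsq f x * η x ^ 2 + 2 * (f x - c) * η x * gin f η x +
      (f x - c) ^ 2 * gsq η x) * psi v x ^ 2 := intg hc (by fun_prop) fun x a b => by simp [a, b]
  have i5 : Integrable fun x => (gsq f x / 2 + qq v x * (c ^ 2 - f x ^ 2)) * η x ^ 2 *
      psi v x ^ 2 := intg hc (by fun_prop) fun x a b => by simp [a]
  have i6 : Integrable fun x => 3 * ((f x - c) ^ 2 * gsq η x * psi v x ^ 2) :=
    intg hc (by fun_prop) fun x a b => by simp [b]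
  have key := integral_mono (i5.sub i6) ((i3.sub i4).add ((i1.add i2).const_mul 2)) fun x => by
    have h1 : -(gsq f x * η x ^ 2 / 2 + 2 * ((f x - c) ^ 2 * gsq η x)) ≤
        2 * (f x - c) * η x * gin f η x := by
      have := gsq_nonneg f x
      have := gsq_nonneg η x
      refine amgm (by positivity) (by positivity) ?_
      have := mul_le_mul_of_nonneg_left (gin_sq_le f η x) (sq_nonneg (2 * (f x - c) * η x))
      nlinarith
    have := mul_le_mul_of_nonneg_right h1 (sq_nonneg (psi v x))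
    simp only [Pi.sub_apply, Pi.add_apply]
    nlinarith
  rw [integral_sub' i5 i6, integral_add' (i3.sub i4) ((i1.add i2).const_mul 2),
    integral_sub' i3 i4, integral_const_mul 2, integral_add' i1 i2] at key
  linarith

/-- integrals against `|∇ cut|²` -/
theorem int_cut {C r : ℝ} (h : Sol v) (hg : Continuous g) (h0 : ∀ x, 0 ≤ g x)
    (hC : ∀ x : EE n, gsq (cut r) x ≤ C / r ^ 2 ∧ (2 * r ≤ ‖x‖ → gsq (cut r) x = 0)) :
    ∫ x, g x * gsq (cut r) x * psi v x ^ 2 ≤ C / r ^ 2 * mu v (ball 0 (2 * r)) g := by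
  rw [← setIntegral_eq_integral_of_forall_compl_eq_zero (s := ball (0 : EE n) (2 * r))
    fun x hx => by rw [(hC x).2 (by simpa using hx)]; simp]
  have h1 := mu_mono_fun (f := fun x => g x * gsq (cut r) x) (g := fun x => C / r ^ 2 * g x) h
    (hg.mul (cont_gsq (contDiff_infty.1 (contDiff_cut' r) 1))) (continuous_const.mul hg)
    measurableSet_ball (Subset.refl (ball (0 : EE n) (2 * r))) fun x _ => by
      rw [mul_comm]; exact mul_le_mul_of_nonneg_right (hC x).1 (h0 x)
  refine h1.trans_eq ?_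
  unfold mu
  rw [← integral_const_mul]
  simp only [mul_assoc]

end Sch'

open Sch' in
theorem sch (hB : Bas) (hW : WeakStmt) : SchStmt := by
  intro n v η e h hs he hη hc
  have hd := hB.dd_smooth h
  have hp : ∀ i, ContDiff ℝ ∞ (pdv i (dd v)) := St.contDiff_pdv_top hd
  have H := Finset.sum_le_sum fun i (_ : i ∈ Finset.univ) =>
    one hW h hs (hp i) (fun x => ((hB.deq n v h).2 x).2.1 i) (e i) hη hc
  have c1 := fun i => (hp i).continuous
  have c2 := hη.continuous
  have c3 := cont_psi h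
  have c4 := h.continuous_qq
  have c5 := fun i => cont_gsq (contDiff_infty.1 (hp i) 1)
  have c6 := cont_gsq hη
  have c7 := cont_hsq hd
  have c8 := h.continuous_tt
  rw [← integral_finsetSum _ fun i _ => intg hc (by fun_prop) fun x a b => by simp [a],
    ← integral_finsetSum _ fun i _ => intg hc (by fun_prop) fun x a b => by simp [b]] at H
  have e1 : ∀ x, ∑ i, (gsq (pdv i (dd v)) x / 2 + qq v x * (e i ^ 2 - pdv i (dd v) x ^ 2)) *
      η x ^ 2 * psi v x ^ 2 = (hsq (dd v) x / 2 + qq v x * tt v x) * η x ^ 2 * psi v x ^ 2 := by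
    intro x
    have h1 : ∑ i, e i ^ 2 = 1 := by
      rw [← EuclideanSpace.real_norm_sq_eq, he, one_pow]
    rw [← Finset.sum_mul, ← Finset.sum_mul, Finset.sum_add_distrib, ← Finset.sum_div,
      ← Finset.mul_sum, Finset.sum_sub_distrib, h1, hsq_eq, Finset.sum_comm, tt, ← gsq_eq]
    rfl
  have e2 : ∀ x, ∑ i, 3 * ((pdv i (dd v) x - e i) ^ 2 * gsq η x * psi v x ^ 2) =
      3 * (‖∇ (dd v) x - e‖ ^ 2 * gsq η x * psi v x ^ 2) := by
    intro x
    rw [← Finset.mul_sum, ← Finset.sum_mul, ← Finset.sum_mul, EuclideanSpace.real_norm_sq_eq]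
    simp only [PiLp.sub_apply, grad_apply]
  simp only [e1, e2, integral_const_mul] at H
  have H2 : ∫ x, (hsq (dd v) x + qq v x * tt v x) * η x ^ 2 * psi v x ^ 2 ≤
      ∫ x, 2 * ((hsq (dd v) x / 2 + qq v x * tt v x) * η x ^ 2 * psi v x ^ 2) :=
    integral_mono (intg hc (by fun_prop) fun x a b => by simp [a])
      (intg hc (by fun_prop) fun x a b => by simp [a]) fun x => by
      have := mul_nonneg (mul_nonneg (mul_nonneg (hB.qq_nonneg h x) (hB.tt_nonneg h x))
        (sq_nonneg (η x))) (sq_nonneg (psi v x))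
      beta_reduce
      nlinarith
  rw [integral_const_mul] at H2
  linarith

open Sch' in
theorem eps (hB : Bas) (hW : WeakStmt) (hS : SchStmt) : EpsStmt := by
  intro u Θ hu A
  have h := hu.sol
  obtain ⟨C, hC0, hC⟩ := exists_gsq_cut 8
  have hΘ := hu.enb.nonneg
  have hA0 : 0 ≤ max A 0 := le_max_right _ _
  refine ⟨18 * C * max A 0 + 512 * C * Θ, by positivity, fun r θ e hr hθ hθ1 he hA => ?_⟩
  have hr0 : 0 < r := by linarith
  have hd := hB.dd_smooth h
  have hη : ContDiff ℝ 1 (cut r : EE 8 → ℝ) := contDiff_infty.1 (contDiff_cut' r) 1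
  have hc : HasCompactSupport (cut r : EE 8 → ℝ) := cs_cut hr0
  have ht : tt u = fun x => 1 - gsq (dd u) x := funext fun x => by rw [gsq_eq]; rfl
  have ht2 : ContDiff ℝ 2 (tt u) := by
    rw [ht]
    exact contDiff_const.sub (contDiff_iff_contDiffAt.2 fun x =>
      contDiffAt_gsq (contDiff_infty.1 hd 3).contDiffAt (by norm_num))
  have ht1 : ContDiff ℝ 1 (tt u) := ht2.of_le (by norm_num)
  have hL : ∀ x, Lm u (tt u) x = 2 * (qq u x * (1 - tt u x) - hsq (dd u) x) := fun x => by
    linarith [((hB.deq 8 u h).2 x).2.2]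
  have W := hW 8 u (tt u) (fun y => cut r y ^ 2) h ht2 (hη.pow 2) (St.cs_sq hc)
  simp only [hL, gin_sq (hη.differentiable one_ne_zero _)] at W
  have S := hS 8 u (cut r) e h hu.stab he hη hc
  have hC' := fun x => And.intro (hC r hr0 x).1 (hC r hr0 x).2.1
  have I1 := int_cut (g := fun x => ‖∇ (dd u) x - e‖ ^ 2) h
    (((hB.cont_grad h).sub continuous_const).norm.pow 2) (fun x => sq_nonneg _) hC'
  have I2 := int_cut (g := fun _ => 1) h continuous_const (fun x => zero_le_one) hC'
  have M2 := mu_one_le h hu.enb 0 (r := 2 * r) (by linarith)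
  have c2 := hη.continuous
  have c3 := cont_psi h
  have c4 := h.continuous_qq
  have c6 := cont_gsq hη
  have c7 := cont_hsq hd
  have c8 := h.continuous_tt
  have c9 := cont_gin ht1 hη
  have i0 : Integrable fun x => (hsq (dd u) x + qq u x) * cut r x ^ 2 * psi u x ^ 2 :=
    intg hc (by fun_prop) fun x a b => by simp [a]
  have i1 : Integrable fun x => (hsq (dd u) x + qq u x * tt u x) * cut r x ^ 2 * psi u x ^ 2 :=
    intg hc (by fun_prop) fun x a b => by simp [a]
  have i2 : Integrable fun x => 1 * gsq (cut r) x * psi u x ^ 2 :=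
    intg hc (by fun_prop) fun x a b => by simp [b]
  have i3 : Integrable fun x => 2 * (qq u x * (1 - tt u x) - hsq (dd u) x) * cut r x ^ 2 *
      psi u x ^ 2 := intg hc (by fun_prop) fun x a b => by simp [a]
  have i4 : Integrable fun x => 2 * cut r x * gin (tt u) (cut r) x * psi u x ^ 2 :=
    intg hc (by fun_prop) fun x a b => by simp [a]
  have key := integral_mono (i0.const_mul (θ ^ 2)) (((i1.const_mul 3).add
    (i2.const_mul (θ ^ 4))).add ((i3.add i4).const_mul (θ ^ 2 / 2))) fun x => by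
    have a1 := hsq_nonneg (dd u) x
    have a2 := gsq_nonneg (cut r : EE 8 → ℝ) x
    have a3 := mul_nonneg (hB.qq_nonneg h x) (hB.tt_nonneg h x)
    have a4 : gsq (tt u) x ≤ 4 * hsq (dd u) x := by
      have b1 : gsq (tt u) x = gsq (gsq (dd u)) x := by
        rw [ht]; simp only [gsq, pdv_const_sub, neg_sq]; rfl
      have b2 := gsq_gsq_le (contDiff_infty.1 hd 2).contDiffAt (x := x)
      have b3 : gsq (dd u) x ≤ 1 := by
        have := hB.tt_nonneg h x
        rw [ht] at this
        linarith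
      nlinarith
    have h1 : -(hsq (dd u) x * cut r x ^ 2 + θ ^ 4 * gsq (cut r) x) ≤
        θ ^ 2 * cut r x * gin (tt u) (cut r) x := by
      refine amgm (by positivity) (by positivity) ?_
      have := mul_le_mul_of_nonneg_left ((gin_sq_le (tt u) (cut r) x).trans
        (mul_le_mul_of_nonneg_right a4 a2)) (sq_nonneg (θ ^ 2 * cut r x))
      nlinarith
    have h2 : θ ^ 2 * ((2 * hsq (dd u) x + qq u x * tt u x) * cut r x ^ 2) ≤
        (2 * hsq (dd u) x + 3 * (qq u x * tt u x)) * cut r x ^ 2 := by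
      have b1 : θ ^ 2 ≤ 1 := by nlinarith
      have b2 : 0 ≤ (2 * hsq (dd u) x + qq u x * tt u x) * cut r x ^ 2 := by positivity
      have b3 : 0 ≤ qq u x * tt u x * cut r x ^ 2 := by positivity
      nlinarith
    have h3 := mul_le_mul_of_nonneg_right (add_le_add h1 h2) (sq_nonneg (psi u x))
    simp only [Pi.add_apply]
    nlinarith
  rw [integral_add' ((i1.const_mul 3).add (i2.const_mul (θ ^ 4))) ((i3.add i4).const_mul _),
    integral_add' (i1.const_mul 3) (i2.const_mul (θ ^ 4)), integral_const_mul, integral_const_mul,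
    integral_const_mul, integral_const_mul, integral_add' i3 i4, W] at key
  have H0 : mu u (ball 0 r) (curv u fun _ => 1) ≤
      ∫ x, (hsq (dd u) x + qq u x) * cut r x ^ 2 * psi u x ^ 2 := by
    refine le_trans (le_of_eq (setIntegral_congr_fun measurableSet_ball fun x hx => ?_))
      (setIntegral_le_integral (s := ball 0 r) i0 (Eventually.of_forall fun x => ?_))
    · simp [curv, gsq, pdv_const, cut_one hr0 (le_of_lt (mem_ball_zero_iff.1 hx))]
    · have := hsq_nonneg (dd u) x
      have := hB.qq_nonneg h x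
      positivity
  have hCr : 0 ≤ C / r ^ 2 := by positivity
  have H1 := mul_le_mul_of_nonneg_left (hA.trans (mul_le_mul_of_nonneg_right
    (mul_le_mul_of_nonneg_right (le_max_left A 0) (by positivity)) (by positivity))) hCr
  have H2 := mul_le_mul_of_nonneg_left M2 hCr
  have e1 : C / r ^ 2 * (max A 0 * θ ^ 4 * r ^ 7) = C * max A 0 * θ ^ 4 * r ^ 5 := by field_simp
  have e2 : C / r ^ 2 * (4 * Θ * (2 * r) ^ 7) = 512 * C * Θ * r ^ 5 := by field_simp; ring
  have H3 := mul_le_mul_of_nonneg_left (I2.trans (H2.trans_eq e2)) (pow_pos hθ 4).le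
  have H4 := mul_le_mul_of_nonneg_left H0 (sq_nonneg θ)
  refine le_of_mul_le_mul_left ?_ (pow_pos hθ 2)
  nlinarith [I1.trans (H1.trans_eq e1)]

end Crest.Agent.N067.X7
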