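import Crest.Agent.N067.X7.Basic

/-! # Row 67, X7: Tail
eta = cut r (x - y).  (1) mu_one_le.  (2) int_{ball y r} psi <= C r^7: Lap psi = 2 psi - psi^2 (3 - t) (from Sol.lap_psi), so
 2 int psi eta <= 3 int psi^2 eta + int psi |Lap eta| (green_smooth), psi <= 1, |Lap eta| <= C/r^2 on ball 2r of volume c r^8.
 On T < |d|: psi = 1 - tanh(d/sqrt2)^2 <= 4 exp(-sqrt2 |d|) <= 4 exp(-T) (tanh_dd), so psi^2 <= 4 exp(-T) psi.
 (3) t psi^2 <= (r t psi^3 + t psi / r)/2, dstab with w = eta: int psi^3 t eta^2 <= C r^-2 mu(ball 2r) <= C r^5; t <= 1.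
-/

set_option autoImplicit false

open MeasureTheory Laplacian InnerProductSpace Topology Filter Set Metric
open scoped RealInnerProductSpace ContDiff Gradient

namespace Crest.Agent.N067.X7

open Crest.Agent.R077

namespace Tail'

variable {n : ℕ}

theorem pdv_shift (f : EE n → ℝ) (y : EE n) (i : Fin n) :
    pdv i (fun x => f (x - y)) = fun x => pdv i f (x - y) := by
  funext x
  unfold pdv
  rw [fderiv_comp_sub]

theorem exists_eta (n : ℕ) : ∃ C : ℝ, 0 ≤ C ∧ ∀ (y : EE n) (r : ℝ), 0 < r → ∃ η : EE n → ℝ,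
    ContDiff ℝ ∞ η ∧ HasCompactSupport η ∧
    (∀ x, 0 ≤ η x ∧ η x ≤ 1 ∧ |(Δ η) x| ≤ C / r ^ 2 ∧ gsq η x ≤ C / r ^ 2) ∧
    (∀ x ∈ ball y r, η x = 1) ∧ ∀ x, x ∉ ball y (2 * r) → η x = 0 ∧ (Δ η) x = 0 ∧ gsq η x = 0 := by
  obtain ⟨C, hC, h⟩ := exists_cut_bound n
  obtain ⟨D, hD, h'⟩ := exists_gsq_cut n
  refine ⟨n * C + D, by positivity, fun y r hr => ?_⟩
  have hs : ContDiff ℝ ∞ fun x : EE n => cut r (x - y) :=
    (contDiff_cut' r).comp (contDiff_id.sub contDiff_const)
  have hl : ∀ x, (Δ fun x : EE n => cut r (x - y)) x = ∑ i, pdv i (pdv i (cut r)) (x - y) :=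
    fun x => by
      rw [lap_eq (contDiff_infty.1 hs 2).contDiffAt]
      simp only [pdv_shift]
  have hg : ∀ x, gsq (fun x : EE n => cut r (x - y)) x = gsq (cut r) (x - y) := fun x => by
    simp only [gsq, pdv_shift]
  have hf : ∀ x, x ∉ ball y (2 * r) → 2 * r ≤ ‖x - y‖ := fun x hx => by
    rwa [mem_ball_iff_norm, not_lt] at hx
  refine ⟨_, hs, HasCompactSupport.intro (isCompact_closedBall y (2 * r)) fun x hx =>
    cut_zero hr (hf x fun h => hx (ball_subset_closedBall h)),
    fun x => ⟨cut_nonneg _ _, cut_le_one _ _, ?_, ?_⟩,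
    fun x hx => cut_one hr (mem_ball_iff_norm.1 hx).le,
    fun x hx => ⟨cut_zero hr (hf x hx), ?_, ?_⟩⟩
  · rw [hl]
    calc _ ≤ ∑ _i : Fin n, C / r ^ 2 := (Finset.abs_sum_le_sum_abs _ _).trans
          (Finset.sum_le_sum fun i _ => (h r hr i _).2)
      _ = n * C / r ^ 2 := by simp [mul_div_assoc]
      _ ≤ _ := by gcongr; linarith
  · rw [hg]
    refine (h' r hr _).1.trans ?_
    have : 0 ≤ n * C := by positivity
    gcongr
    linarith
  · rw [hl]
    exact Finset.sum_eq_zero fun i _ => by rw [pdv_congr (pdv_cut_far hr (hf x hx) i), pdv_const]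
  · rw [hg]
    exact (h' r hr _).2.1 (hf x hx)

theorem int_le {f g : EE n → ℝ} (hf : Continuous f) (hg : Continuous g) {y : EE n} {R : ℝ}
    (h0 : ∀ x, x ∉ ball y R → f x = 0) (h : ∀ x, f x ≤ g x) :
    ∫ x, f x ≤ ∫ x in ball y R, g x := by
  rw [← setIntegral_eq_integral_of_forall_compl_eq_zero h0]
  exact setIntegral_mono_on (intOn hf Subset.rfl) (intOn hg Subset.rfl) measurableSet_ball
    fun x _ => h x

theorem le_int {f g : EE n → ℝ} (hf : Integrable f) (hg : Continuous g) {y : EE n} {R : ℝ}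
    (h0 : ∀ x, 0 ≤ f x) (h : ∀ x ∈ ball y R, g x ≤ f x) : ∫ x in ball y R, g x ≤ ∫ x, f x :=
  (setIntegral_mono_on (intOn hg Subset.rfl) hf.integrableOn measurableSet_ball h).trans
    (setIntegral_le_integral hf (Eventually.of_forall h0))

theorem psi_le_exp {v : EE n → ℝ} (h : Sol v) {x : EE n} {T : ℝ} (hT : T < |dd v x|) :
    psi v x ≤ 4 * Real.exp (-T) := by
  have h1 := tanh_dd h x
  have h2 : T ≤ 2 * |dd v x / Real.sqrt 2| := by
    have h3 : Real.sqrt 2 ≤ 2 := Real.sqrt_le_iff.2 ⟨by norm_num, by norm_num⟩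
    have h4 : (0 : ℝ) < Real.sqrt 2 := by positivity
    rw [abs_div, abs_of_pos h4, ← mul_div_assoc, le_div_iff₀ h4]
    nlinarith [abs_nonneg (dd v x)]
  unfold psi
  rw [← h1]
  generalize dd v x / Real.sqrt 2 = s at h2
  have h3 := Real.cosh_pos s
  have h4 : Real.exp |s| ≤ 2 * Real.cosh s := by
    rw [← Real.cosh_abs, Real.cosh_eq]
    linarith [Real.exp_pos (-|s|)]
  have h5 : Real.exp T ≤ (2 * Real.cosh s) ^ 2 := by
    refine (Real.exp_le_exp.2 h2).trans ?_
    rw [two_mul |s|, Real.exp_add, ← sq]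
    gcongr
  have h6 : 1 - Real.tanh s ^ 2 = 1 / Real.cosh s ^ 2 := by
    rw [Real.tanh_eq_sinh_div_cosh]
    field_simp
    linarith [Real.cosh_sq_sub_sinh_sq s]
  rw [h6, Real.exp_neg, ← div_eq_mul_inv, div_le_div_iff₀ (by positivity) (Real.exp_pos T)]
  linarith

/-- the mass of `ψ` -/
theorem int_psi (hB : Bas) {u : EE 8 → ℝ} {Θ : ℝ} (h : Sol u) (hE : EnB u Θ) :
    ∃ K : ℝ, 0 ≤ K ∧ ∀ (y : EE 8) (r : ℝ), 1 ≤ r → ∫ x in ball y r, psi u x ≤ K * r ^ 7 := by
  obtain ⟨C, hC, hη⟩ := exists_eta 8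
  have hΘ := hE.nonneg
  obtain ⟨c, hc⟩ : ∃ c, c = volume.real (ball (0 : EE 8) 1) := ⟨_, rfl⟩
  have hc0 : 0 ≤ c := hc ▸ measureReal_nonneg
  refine ⟨128 * c * C + 768 * Θ, by positivity, fun y r hr => ?_⟩
  have hr0 : 0 < r := by linarith
  obtain ⟨η, hs, hcs, hb, h1, h0⟩ := hη y r hr0
  have hp := cont_psi h
  have hp2 : ContDiff ℝ 2 (psi u) := contDiff_infty.1 h.contDiff_psi 2
  have hs2 : ContDiff ℝ 2 η := contDiff_infty.1 hs 2
  have i1 := St.int_cs (continuous_lap hp2) hs.continuous hcs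
  have hc3 : Continuous fun x => 3 * psi u x ^ 2 := continuous_const.mul (hp.pow 2)
  have i2 := St.int_cs hc3 hs.continuous hcs
  have key : ∀ x, 2 * psi u x ≤ (Δ (psi u)) x + 3 * psi u x ^ 2 := fun x => by
    have h2 := mul_nonneg (hB.qq_nonneg h x) (h.psi_pos x).le
    have h3 : u x ^ 2 = 1 - psi u x := by unfold psi; ring
    rw [h.lap_psi, h3]
    nlinarith
  have a1 : ∫ x in ball y r, 2 * psi u x ≤
      ∫ x, ((Δ (psi u)) x * η x + 3 * psi u x ^ 2 * η x) := by
    refine le_int ?_ ?_ (fun x => ?_) fun x hx => ?_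
    · exact i1.add i2
    · exact continuous_const.mul hp
    · have := mul_nonneg (((mul_pos two_pos (h.psi_pos x)).le).trans (key x)) (hb x).1
      linarith
    · rw [h1 x hx, mul_one, mul_one]
      exact key x
  have a2 : ∫ x, psi u x * (Δ η) x ≤ ∫ _ in ball y (2 * r), C / r ^ 2 := by
    refine int_le ?_ continuous_const
      (fun x hx => by rw [(h0 x hx).2.1, mul_zero]) fun x => ?_
    · exact hp.mul (continuous_lap hs2)
    have h2 := mul_le_mul_of_nonneg_left ((le_abs_self _).trans (hb x).2.2.1) (h.psi_pos x).le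
    exact h2.trans (mul_le_of_le_one_left (by positivity) (psi_le_one u x))
  have a3 : ∫ x, 3 * psi u x ^ 2 * η x ≤ mu u (ball y (2 * r)) fun _ => 3 := by
    refine int_le ?_ hc3 (fun x hx => by rw [(h0 x hx).1, mul_zero]) fun x =>
      mul_le_of_le_one_right (by positivity) (hb x).2.1
    exact hc3.mul hs.continuous
  have a4 := mu_one_le h hE y (r := 2 * r) (by linarith)
  rw [mu_const] at a3
  rw [setIntegral_const, measureReal_def, Measure.addHaar_ball _ _ (by positivity),
    ENNReal.toReal_mul, ENNReal.toReal_ofReal (by positivity), ← measureReal_def, ← hc,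
    finrank_euclideanSpace_fin, smul_eq_mul] at a2
  rw [integral_add i1 i2, ← green_smooth hp2 hs2 hcs, integral_const_mul] at a1
  have a5 : (2 * r) ^ 8 * c * (C / r ^ 2) = 256 * c * C * r ^ 6 := by field_simp; ring
  have a6 : 256 * c * C * r ^ 6 ≤ 256 * c * C * r ^ 7 :=
    mul_le_mul_of_nonneg_left (pow_le_pow_right₀ hr (by norm_num)) (by positivity)
  nlinarith

end Tail'

open Tail' in
theorem tail (hB : Bas) : TailStmt := by
  intro u Θ hM
  have h := hM.sol
  have hΘ := hM.enb.nonneg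
  obtain ⟨K, hK, hψ⟩ := int_psi hB h hM.enb
  obtain ⟨C, hC, hη⟩ := exists_eta 8
  have hp := cont_psi h
  refine ⟨4 * Θ + 4 * K + 256 * C * Θ + 1, by positivity, fun y r hr => ⟨?_, fun T _ => ?_, ?_⟩⟩
  · refine (mu_one_le h hM.enb y hr).trans ?_
    have : 0 ≤ C * Θ := by positivity
    gcongr
    linarith
  · have hm : MeasurableSet (ball y r ∩ {x | T < |dd u x|}) := measurableSet_ball.inter
      (isOpen_lt continuous_const (hB.dd_smooth h).continuous.abs).measurableSet
    have hc : Continuous fun x => 4 * Real.exp (-T) * psi u x := continuous_const.mul hp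
    calc _ ≤ ∫ x in ball y r ∩ {x | T < |dd u x|}, 4 * Real.exp (-T) * psi u x :=
          setIntegral_mono_on (intOn_mu h continuous_const inter_subset_left)
            (intOn hc inter_subset_left) hm fun x hx => by
              rw [one_mul, sq]
              exact mul_le_mul_of_nonneg_right (psi_le_exp h hx.2) (h.psi_pos x).le
      _ ≤ ∫ x in ball y r, 4 * Real.exp (-T) * psi u x :=
          setIntegral_mono_set (intOn hc Subset.rfl) (Eventually.of_forall fun x =>
            mul_nonneg (by positivity) (h.psi_pos x).le) inter_subset_left.eventuallyLE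
      _ ≤ 4 * Real.exp (-T) * (K * r ^ 7) := by
          rw [integral_const_mul]
          exact mul_le_mul_of_nonneg_left (hψ y r hr) (by positivity)
      _ = 4 * K * Real.exp (-T) * r ^ 7 := by ring
      _ ≤ _ := by
          have : 0 ≤ C * Θ := by positivity
          gcongr
          linarith
  · have hr0 : 0 < r := by linarith
    obtain ⟨η, hs, hcs, hb, h1, h0⟩ := hη y r hr0
    have hs1 : ContDiff ℝ 1 η := contDiff_infty.1 hs 1
    have hq := h.continuous_qq
    have a1 : ∫ x in ball y r, qq u x * psi u x ^ 2 ≤ ∫ x, qq u x * η x ^ 2 * psi u x ^ 2 := by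
      refine le_int ?_ ?_ (fun x => ?_) fun x hx => ?_
      · exact ((hq.mul (hs.continuous.pow 2)).mul (hp.pow 2)).integrable_of_hasCompactSupport
          (St.cs_sq hcs).mul_left.mul_right
      · exact hq.mul (hp.pow 2)
      · have := hB.qq_nonneg h x
        positivity
      · rw [h1 x hx, one_pow, mul_one]
    have a2 := dstab 8 u h hM.stab η hs1 hcs
    have a3 : ∫ x, ‖∇ η x‖ ^ 2 * psi u x ^ 2 ≤ mu u (ball y (2 * r)) fun _ => C / r ^ 2 := by
      simp only [← gsq_eq]
      unfold mu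
      refine int_le ?_ ?_ (fun x hx => by rw [(h0 x hx).2.2, zero_mul]) fun x =>
        mul_le_mul_of_nonneg_right (hb x).2.2.2 (sq_nonneg _)
      · exact (cont_gsq hs1).mul (hp.pow 2)
      · exact continuous_const.mul (hp.pow 2)
    have a4 := mul_le_mul_of_nonneg_left (mu_one_le h hM.enb y (r := 2 * r) (by linarith))
      (by positivity : 0 ≤ C / r ^ 2)
    rw [mu_const] at a3
    have i1 : IntegrableOn (fun x => r / 2 * (qq u x * psi u x ^ 2)) (ball y r) :=
      intOn (continuous_const.mul (hq.mul (hp.pow 2))) Subset.rfl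
    have i2 : IntegrableOn (fun x => 1 / (2 * r) * psi u x) (ball y r) :=
      intOn (continuous_const.mul hp) Subset.rfl
    have a5 : mu u (ball y r) (tt u) ≤
        ∫ x in ball y r, (r / 2 * (qq u x * psi u x ^ 2) + 1 / (2 * r) * psi u x) := by
      refine setIntegral_mono_on (intOn_mu h h.continuous_tt Subset.rfl) (i1.add i2)
        measurableSet_ball fun x _ => ?_
      have b1 := hB.tt_nonneg h x
      have b2 := tt_le_one u x
      have b3 := (h.psi_pos x).le
      have b4 : r / 2 * (qq u x * psi u x ^ 2) + 1 / (2 * r) * psi u x - tt u x * psi u x ^ 2 =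
          (tt u x * psi u x * (r * psi u x - 1) ^ 2 + (1 - tt u x) * psi u x) / (2 * r) := by
        unfold qq
        field_simp
        ring
      have b5 : 0 ≤ 1 - tt u x := sub_nonneg.2 b2
      rw [← sub_nonneg, b4]
      positivity
    rw [integral_add i1 i2, integral_const_mul, integral_const_mul] at a5
    have a6 := mul_le_mul_of_nonneg_left (((a1.trans a2).trans a3).trans a4)
      (by positivity : 0 ≤ r / 2)
    have a7 := mul_le_mul_of_nonneg_left (hψ y r hr) (by positivity : 0 ≤ 1 / (2 * r))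
    have e1 : r / 2 * (C / r ^ 2 * (4 * Θ * (2 * r) ^ 7)) = 256 * C * Θ * r ^ 6 := by
      field_simp
      ring
    have e2 : 1 / (2 * r) * (K * r ^ 7) = K / 2 * r ^ 6 := by field_simp
    have a8 : 0 ≤ (4 * Θ + 7 / 2 * K + 1) * r ^ 6 := by positivity
    nlinarith

end Crest.Agent.N067.X7
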