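import Crest.Agent.N067.X7.Basic

/-! # Row 67, X7: Vert
d/dtau Phi(u(x + tau e8)) = psi u_8 = psi^2 sig / sqrt2 <= psi^2 sig at x + tau e8 (Sol.pdv_dd).  FTC on [-h2,h1], swap the integrals
 (continuous integrand on a bounded product set), for each tau: int_{ball 0 s} (sig psi^2)(x + tau e8) dx = int_{ball (tau e8) s} <= mu(ball 0 S) sig
 (translation invariance: setIntegral via measurePreserving_add_right; sig >= 0).
-/

set_option autoImplicit false

open MeasureTheory Laplacian InnerProductSpace Topology Filter Set Metric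
open scoped RealInnerProductSpace ContDiff Gradient

namespace Crest.Agent.N067.X7

open Crest.Agent.R077

namespace Vert'

theorem deriv_line {u : EE 8 → ℝ} (h : Sol u) (x : EE 8) (τ : ℝ) :
    HasDerivAt (fun τ : ℝ => Phi (u (x + τ • e8)))
      (psi u (x + τ • e8) * pdv (Fin.last 7) u (x + τ • e8)) τ := by
  have h1 : HasDerivAt (fun τ : ℝ => x + τ • e8) e8 τ := by
    simpa using ((hasDerivAt_id τ).smul_const e8).const_add x
  have h2 : HasDerivAt (fun τ : ℝ => u (x + τ • e8)) (pdv (Fin.last 7) u (x + τ • e8)) τ :=
    (h.sm.differentiable (by simp) (x + τ • e8)).hasFDerivAt.comp_hasDerivAt τ h1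
  refine (h2.fun_sub ((h2.fun_pow 3).div_const 3)).congr_deriv ?_
  unfold psi
  norm_num; ring

theorem sig_eq {u : EE 8 → ℝ} (h : Sol u) (x : EE 8) :
    sig u x * psi u x ^ 2 = Real.sqrt 2 * (psi u x * pdv (Fin.last 7) u x) := by
  have := h.psi_pos x
  rw [sig, h.pdv_dd]; field_simp

end Vert'
open Vert'

theorem vert (hB : Bas) : VertStmt := by
  intro u Θ hu s h1 h2 S hs hh1 hh2 hS1 hS2
  have h := hu.sol
  have hσ : Continuous (sig u) := (St.contDiff_pdv_top (hB.dd_smooth h) _).continuous
  have hk0 : ∀ x, 0 ≤ psi u x * pdv (Fin.last 7) u x := fun x =>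
    mul_nonneg (h.psi_pos x).le (hu.mono x).le
  have hσ0 : ∀ x, 0 ≤ sig u x := fun x => by
    have := h.psi_pos x
    rw [sig, h.pdv_dd]
    exact mul_nonneg (by positivity) (hu.mono x).le
  set g : EE 8 → ℝ := fun x => sig u x * psi u x ^ 2 with hg
  have hgc : Continuous g := hσ.mul ((cont_psi h).pow 2)
  have hkc : Continuous fun x => psi u x * pdv (Fin.last 7) u x :=
    (cont_psi h).mul (St.contDiff_pdv_top h.sm _).continuous
  have hle : -h2 ≤ h1 := by linarith
  have hI : Integrable (Function.uncurry fun (x : EE 8) (τ : ℝ) => g (x + τ • e8))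
      ((volume.restrict (ball (0 : EE 8) s)).prod (volume.restrict (Ioc (-h2) h1))) := by
    rw [Measure.prod_restrict]
    refine IntegrableOn.mono_set (t := closedBall (0 : EE 8) s ×ˢ Icc (-h2) h1) ?_
      (prod_mono ball_subset_closedBall Ioc_subset_Icc_self)
    exact (Continuous.continuousOn (hgc.comp (by fun_prop))).integrableOn_compact
      ((isCompact_closedBall _ _).prod isCompact_Icc)
  have hu0 := h.sm.continuous
  calc _ ≤ ∫ x in ball (0 : EE 8) s, ∫ τ in Ioc (-h2) h1, g (x + τ • e8) := by
        refine setIntegral_mono_on (intOn (by unfold Phi; fun_prop) Subset.rfl)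
          hI.integral_prod_left measurableSet_ball fun x _ => ?_
        have h3 := intervalIntegral.integral_eq_sub_of_hasDerivAt (a := -h2) (b := h1)
          (fun τ _ => deriv_line h x τ) ((hkc.comp (by fun_prop)).intervalIntegrable _ _)
        rw [neg_smul, ← sub_eq_add_neg] at h3
        rw [← h3, ← intervalIntegral.integral_of_le hle]
        refine intervalIntegral.integral_mono_on hle
          ((hkc.comp (by fun_prop)).intervalIntegrable _ _)
          ((hgc.comp (by fun_prop)).intervalIntegrable _ _) fun τ _ => ?_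
        simp only [hg, sig_eq h]
        exact le_mul_of_one_le_left (hk0 _) (Real.one_le_sqrt.2 one_le_two)
    _ = ∫ τ in Ioc (-h2) h1, ∫ x in ball (0 : EE 8) s, g (x + τ • e8) :=
        integral_integral_swap hI
    _ ≤ ∫ _τ in Ioc (-h2) h1, mu u (ball 0 S) (sig u) := by
        refine setIntegral_mono_on hI.integral_prod_right (integrableOn_const (by simp))
          measurableSet_Ioc fun τ hτ => ?_
        have h3 := (measurePreserving_add_right volume (τ • e8)).setIntegral_preimage_emb
          (measurableEmbedding_addRight _) g (ball (τ • e8) s)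
        rw [preimage_add_right_ball, sub_self] at h3
        rw [h3]
        refine mu_mono_set h hσ hσ0 (ball_subset_ball' ?_) Subset.rfl
        have h4 : |τ| ≤ S - s := abs_le.2 ⟨by linarith [hτ.1], by linarith [hτ.2]⟩
        simp only [dist_zero_right, norm_smul, e8, PiLp.norm_single, norm_one,
          Real.norm_eq_abs]
        linarith
    _ = _ := by
        rw [setIntegral_const, Real.volume_real_Ioc_of_le hle, smul_eq_mul, sub_neg_eq_add]

end Crest.Agent.N067.X7
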